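import Vale.Agent.P197.Saxl.Involution

/-!
# P197: the staircase idempotent mod 2

`#(R C ∩ C R)` is odd for the staircase: swapping two cells of one row sent to one row is an
involution, and exactly one permutation is left.  Hence `∑_g [a g ∈ R C] [g⁻¹ b ∈ R C]` is
`[a b ∈ R C]` mod 2.
-/

namespace Vale.Agent.P197.Saxl

open Finset Equiv

variable {m : ℕ}

/-- A cell from its coordinates. -/
def mkCell {i j : ℕ} (h : i + j < m) : Stair m :=
  ⟨(⟨i, by omega⟩, ⟨j, by omega⟩), h⟩

theorem stair_ext {x y : Stair m} (h1 : (stairRow m x : ℕ) = stairRow m y)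
    (h2 : (stairCol m x : ℕ) = stairCol m y) : x = y :=
  stair_injective m (Prod.ext (Fin.ext h1) (Fin.ext h2))

/-- A labelling injective on rows takes every small value in every row. -/
theorem exists_in_row {v : Stair m → ℕ} (hlt : ∀ x, v x + stairRow m x < m)
    (hinj : ∀ x y, stairRow m x = stairRow m y → v x = v y → x = y) {i r : ℕ} (h : i + r < m) :
    ∃ x, (stairRow m x : ℕ) = i ∧ v x = r := by
  let f : Fin (m - i) → Fin (m - i) := fun j =>
    ⟨v (mkCell (show i + (j : ℕ) < m by omega)), by
      have e : v (mkCell (show i + (j : ℕ) < m by omega)) + i < m := hlt _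
      omega⟩
  have hf : Function.Injective f := fun j k e => Fin.ext
    (congrArg (fun x : Stair m => (stairCol m x : ℕ)) (hinj
      (mkCell (show i + (j : ℕ) < m by omega)) (mkCell (show i + (k : ℕ) < m by omega)) rfl
      (congrArg Fin.val e)))
  obtain ⟨j, hj⟩ := Finite.surjective_of_injective hf ⟨r, by omega⟩
  exact ⟨mkCell (show i + (j : ℕ) < m by omega), rfl, congrArg Fin.val hj⟩

/-- A triangular Latin square is forced. -/
theorem latin_forced {v : Stair m → ℕ} (hlt : ∀ x, v x + stairRow m x < m)
    (hrow : ∀ x y, stairRow m x = stairRow m y → v x = v y → x = y)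
    (hcol : ∀ x y, stairCol m x = stairCol m y → v x = v y → x = y) (x : Stair m) :
    v x + stairRow m x + stairCol m x + 1 = m := by
  suffices key : ∀ r (x : Stair m), v x = r ↔ r + stairRow m x + stairCol m x + 1 = m by
    have := (key (v x) x).mp rfl
    exact this
  intro r
  induction r using Nat.strong_induction_on with
  | _ r ih =>
    have hle : ∀ x : Stair m, v x = r → r + stairRow m x + stairCol m x + 1 ≤ m := by
      intro x hx
      by_contra hgt
      have hs : (stairRow m x : ℕ) + stairCol m x < m := x.2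
      have := (ih (m - 1 - ((stairRow m x : ℕ) + stairCol m x)) (by omega) x).mpr (by omega)
      omega
    have hdiag : ∀ k (x : Stair m), v x = r → r + stairRow m x + k + 1 = m →
        (stairCol m x : ℕ) = k := by
      intro k
      induction k using Nat.strong_induction_on with
      | _ k ihk =>
        intro x hx hk
        have h1 := hle x hx
        rcases Nat.lt_or_ge (stairCol m x : ℕ) k with hlt2 | hge
        · obtain ⟨y, hy, hvy⟩ := exists_in_row hlt hrow
            (i := (stairRow m x : ℕ) + (k - (stairCol m x : ℕ))) (r := r) (by omega)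
          have hc : (stairCol m y : ℕ) = stairCol m x := ihk _ hlt2 y hvy (by omega)
          have e := hcol y x (Fin.ext hc) (hvy.trans hx.symm)
          rw [e] at hy
          omega
        · omega
    intro x
    constructor
    · intro hx
      have h1 := hlt x
      have := hdiag (m - 1 - r - (stairRow m x : ℕ)) x hx (by omega)
      omega
    · intro hx
      obtain ⟨y, hy, hvy⟩ := exists_in_row hlt hrow (i := (stairRow m x : ℕ)) (r := r) (by omega)
      have hc := hdiag (stairCol m x : ℕ) y hvy (by omega)
      rw [← hvy, stair_ext hy.symm hc.symm]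

/-- Membership in `R C ∩ C R`, in labels. -/
def InBoth (g : Perm (Stair m)) : Prop :=
  IsCellMap (fun x => (stairRow m x : ℕ)) (fun x => (stairCol m x : ℕ)) g ∧
    (∀ x, (stairRow m x : ℕ) + stairCol m (g x) < m) ∧
      Function.Injective fun x => ((stairRow m x : ℕ), (stairCol m (g x) : ℕ))

instance : DecidablePred (InBoth (m := m)) := fun g =>
  inferInstanceAs (Decidable (IsCellMap (fun x => (stairRow m x : ℕ)) (fun x => (stairCol m x : ℕ)) g ∧
    (∀ x, (stairRow m x : ℕ) + stairCol m (g x) < m) ∧
      Function.Injective fun x => ((stairRow m x : ℕ), (stairCol m (g x) : ℕ))))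

theorem mem_both_iff (g : Perm (Stair m)) : g ∈ rcSet m ∧ g⁻¹ ∈ rcSet m ↔ InBoth g := by
  rw [mem_rcSet_iff, mem_rcSet_iff]
  have e : ∀ x, g⁻¹ (g x) = x := g.symm_apply_apply
  have e' : ∀ x, g (g⁻¹ x) = x := g.apply_symm_apply
  refine and_congr_right fun _ => ⟨fun h => ⟨fun x => ?_, fun x y h' => g.injective (h.2 ?_)⟩,
    fun h => ⟨fun x => ?_, fun x y h' => g⁻¹.injective (h.2 ?_)⟩⟩
  · have := h.1 (g x)
    simp only [e] at this
    exact this
  · simp only [e]
    exact h'
  · have := h.1 (g⁻¹ x)
    simp only [e'] at this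
    exact this
  · simp only [e']
    exact h'

/-- Two cells of one row go to one row. -/
def HasRepeat (g : Perm (Stair m)) : Prop :=
  ∃ p : Stair m × Stair m, p.1 ≠ p.2 ∧ stairRow m p.1 = stairRow m p.2 ∧
    stairRow m (g p.1) = stairRow m (g p.2)

/-- Values with the multiplicities of the staircase rows which do not repeat inside a row fit
the rows. -/
theorem row_bound {v w : Stair m → ℕ} (hw : ∀ x, v x + w x < m)
    (hinj : Function.Injective fun x => (v x, w x))
    (hrow : ∀ x y, stairRow m x = stairRow m y → v x = v y → x = y) (x : Stair m) :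
    v x + stairRow m x < m := by
  suffices key : ∀ i (x : Stair m), (stairRow m x : ℕ) = i → v x + i < m from key _ x rfl
  intro i
  induction i using Nat.strong_induction_on with
  | _ i ih =>
    intro x hx
    by_contra hge
    have hrm : v x < m := by have := hw x; omega
    have hex : ∀ k : Fin (m - v x), ∃ y, (stairRow m y : ℕ) = k ∧ v y = v x := by
      intro k
      let f : Fin (m - (k : ℕ)) → Fin (m - (k : ℕ)) := fun j =>
        ⟨v (mkCell (show (k : ℕ) + (j : ℕ) < m by omega)), by
          have e : v (mkCell (show (k : ℕ) + (j : ℕ) < m by omega)) + (k : ℕ) < m :=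
            ih k (by omega) _ rfl
          omega⟩
      have hf : Function.Injective f := fun j l e => Fin.ext
        (congrArg (fun x : Stair m => (stairCol m x : ℕ)) (hrow
          (mkCell (show (k : ℕ) + (j : ℕ) < m by omega))
          (mkCell (show (k : ℕ) + (l : ℕ) < m by omega)) rfl (congrArg Fin.val e)))
      obtain ⟨j, hj⟩ := Finite.surjective_of_injective hf ⟨v x, by omega⟩
      exact ⟨mkCell (show (k : ℕ) + (j : ℕ) < m by omega), rfl, congrArg Fin.val hj⟩
    choose y hy1 hy2 using hex
    let z : Option (Fin (m - v x)) → Stair m := fun o => o.elim x y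
    have hz : Function.Injective z := by
      rintro (_ | k) (_ | l) e
      · rfl
      · have := congrArg (fun x : Stair m => (stairRow m x : ℕ)) e
        simp only [z, Option.elim, hy1, hx] at this
        omega
      · have := congrArg (fun x : Stair m => (stairRow m x : ℕ)) e
        simp only [z, Option.elim, hy1, hx] at this
        omega
      · have := congrArg (fun x : Stair m => (stairRow m x : ℕ)) e
        simp only [z, Option.elim, hy1] at this
        rw [Fin.ext this]
    have hzr : ∀ o, v (z o) = v x := by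
      rintro (_ | k)
      · rfl
      · exact hy2 k
    let F : Option (Fin (m - v x)) → Fin (m - v x) := fun o => ⟨w (z o), by
      have h1 := hw (z o)
      have h2 := hzr o
      omega⟩
    have hF : Function.Injective F := fun o o' e =>
      hz (hinj (Prod.ext ((hzr o).trans (hzr o').symm) (congrArg Fin.val e)))
    have := Fintype.card_le_of_injective F hF
    simp at this

/-- The permutation left after the involution. -/
theorem forced {g : Perm (Stair m)} (hg : InBoth g) (hno : ¬ HasRepeat g) (x : Stair m) :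
    (stairRow m (g x) : ℕ) + stairRow m x + stairCol m x + 1 = m ∧
      (stairCol m (g x) : ℕ) = stairCol m x := by
  obtain ⟨⟨hg1, hg2⟩, hg3, hg4⟩ := hg
  have hrow : ∀ x y, stairRow m x = stairRow m y →
      (stairRow m (g x) : ℕ) = stairRow m (g y) → x = y := fun x y h1 h2 => by
    by_contra hne
    exact hno ⟨(x, y), hne, h1, Fin.ext h2⟩
  have hcol : ∀ x y, stairCol m x = stairCol m y →
      (stairRow m (g x) : ℕ) = stairRow m (g y) → x = y := fun x y h1 h2 =>
    hg2 (Prod.ext h2 (congrArg Fin.val h1))
  have hlt := row_bound (v := fun x => (stairRow m (g x) : ℕ))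
    (w := fun x => (stairCol m (g x) : ℕ)) (fun x => (g x).2)
    (fun x y e => g.injective (stair_ext (congrArg Prod.fst e) (congrArg Prod.snd e))) hrow
  have hs := latin_forced (v := fun x => (stairRow m (g x) : ℕ)) hlt hrow hcol
  refine ⟨hs x, ?_⟩
  let ψ : Stair m → Stair m := fun x =>
    mkCell (show (stairRow m x : ℕ) + (m - 1 - stairRow m x - stairCol m x) < m by
      have h2 : (stairRow m x : ℕ) + stairCol m x < m := x.2
      omega)
  have hψr : ∀ x, (stairRow m (ψ x) : ℕ) = stairRow m x := fun _ => rfl
  have hψc : ∀ x, (stairCol m (ψ x) : ℕ) = m - 1 - stairRow m x - stairCol m x := fun _ => rfl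
  have hψψ : ∀ x, ψ (ψ x) = x := fun x => stair_ext (by rw [hψr, hψr]) (by
    have h2 : (stairRow m x : ℕ) + stairCol m x < m := x.2
    rw [hψc, hψr, hψc]
    omega)
  have hψs : ∀ y, (stairRow m (g (ψ y)) : ℕ) = stairCol m y := fun y => by
    have h1 : (stairRow m (g (ψ y)) : ℕ) + stairRow m (ψ y) + stairCol m (ψ y) + 1 = m := hs (ψ y)
    have h2 : (stairRow m y : ℕ) + stairCol m y < m := y.2
    rw [hψr, hψc] at h1
    omega
  have ht := latin_forced (v := fun y => (stairCol m (g (ψ y)) : ℕ))
    (fun y => by
      have := hg3 (ψ y)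
      rw [hψr] at this
      omega)
    (fun y y' h1 h2 => by
      have e := hg4 (show ((stairRow m (ψ y) : ℕ), (stairCol m (g (ψ y)) : ℕ))
        = ((stairRow m (ψ y') : ℕ), (stairCol m (g (ψ y')) : ℕ)) from
          Prod.ext (congrArg Fin.val h1) h2)
      rw [← hψψ y, e, hψψ])
    (fun y y' h1 h2 => by
      have e := g.injective (stair_ext (x := g (ψ y)) (y := g (ψ y'))
        (by rw [hψs, hψs, h1]) h2)
      rw [← hψψ y, e, hψψ]) (ψ x)
  simp only [hψψ, hψr, hψc] at ht
  have h2 : (stairRow m x : ℕ) + stairCol m x < m := x.2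
  omega

/-- The permutation `(i, j) ↦ (m - 1 - i - j, j)`. -/
def antiPerm (m : ℕ) : Perm (Stair m) :=
  Function.Involutive.toPerm (fun x => mkCell (m := m)
    (show (m - 1 - stairRow m x - stairCol m x : ℕ) + stairCol m x < m by
      have h2 : (stairRow m x : ℕ) + stairCol m x < m := x.2
      omega)) fun x => stair_ext (by
    have h2 : (stairRow m x : ℕ) + stairCol m x < m := x.2
    show m - 1 - (m - 1 - (stairRow m x : ℕ) - stairCol m x) - stairCol m x = (stairRow m x : ℕ)
    omega) rfl

theorem antiPerm_row (x : Stair m) :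
    (stairRow m (antiPerm m x) : ℕ) = m - 1 - stairRow m x - stairCol m x := rfl

theorem antiPerm_col (x : Stair m) : (stairCol m (antiPerm m x) : ℕ) = stairCol m x := rfl

/-- The swap attached to a row labelling with a repeat. -/
noncomputable def repSwap (σ : Stair m → Fin m) : Perm (Stair m) :=
  open Classical in
  if h : ∃ p : Stair m × Stair m, p.1 ≠ p.2 ∧ stairRow m p.1 = stairRow m p.2 ∧ σ p.1 = σ p.2 then
    swap h.choose.1 h.choose.2 else 1

/-- The involution on permutations with a repeat. -/
noncomputable def flipRep (g : Perm (Stair m)) : Perm (Stair m) :=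
  g * repSwap (stairRow m ∘ ⇑g)

theorem flipRep_spec {g : Perm (Stair m)} (hg : HasRepeat g) :
    stairRow m ∘ ⇑(flipRep g) = stairRow m ∘ ⇑g ∧ (InBoth g → InBoth (flipRep g)) ∧
      flipRep g ≠ g ∧ flipRep (flipRep g) = g := by
  have hex : ∃ p : Stair m × Stair m, p.1 ≠ p.2 ∧ stairRow m p.1 = stairRow m p.2 ∧
      (stairRow m ∘ ⇑g) p.1 = (stairRow m ∘ ⇑g) p.2 := hg
  have hsw : repSwap (stairRow m ∘ ⇑g) = swap hex.choose.1 hex.choose.2 := dif_pos hex
  have hflip : flipRep g = g * swap hex.choose.1 hex.choose.2 := congrArg (g * ·) hsw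
  obtain ⟨hne, hr, hs⟩ := hex.choose_spec
  simp only [Function.comp_apply] at hs
  have ht1 : ∀ x, stairRow m (swap hex.choose.1 hex.choose.2 x) = stairRow m x := fun x => by
    rcases eq_or_ne x hex.choose.1 with h1 | h1
    · rw [h1, swap_apply_left, hr]
    rcases eq_or_ne x hex.choose.2 with h2 | h2
    · rw [h2, swap_apply_right, hr]
    · rw [swap_apply_of_ne_of_ne h1 h2]
  have ht2 : ∀ x, stairRow m (g (swap hex.choose.1 hex.choose.2 x)) = stairRow m (g x) := fun x => by
    rcases eq_or_ne x hex.choose.1 with h1 | h1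
    · rw [h1, swap_apply_left, hs]
    rcases eq_or_ne x hex.choose.2 with h2 | h2
    · rw [h2, swap_apply_right, hs]
    · rw [swap_apply_of_ne_of_ne h1 h2]
  have hσ : stairRow m ∘ ⇑(flipRep g) = stairRow m ∘ ⇑g := by
    rw [hflip]
    exact funext fun x => ht2 x
  refine ⟨hσ, fun hin => ?_, fun h => ?_, ?_⟩
  · obtain ⟨⟨h1, h2⟩, h3, h4⟩ := hin
    rw [hflip]
    refine ⟨⟨fun x => ?_, fun x y e => h2 ?_⟩, fun x => ?_,
      fun x y e => (swap hex.choose.1 hex.choose.2).injective (h4 ?_)⟩
    · show (stairRow m (g (swap hex.choose.1 hex.choose.2 x)) : ℕ) + stairCol m x < m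
      rw [ht2]
      exact h1 x
    · simpa [ht2] using e
    · have := h3 (swap hex.choose.1 hex.choose.2 x)
      rw [ht1] at this
      exact this
    · simpa [ht1] using e
  · rw [hflip] at h
    exact hne (swap_eq_one_iff.mp (mul_eq_left.mp h))
  · rw [flipRep, hσ, hsw, hflip, mul_assoc, swap_mul_self, mul_one]

theorem hasRepeat_flipRep {g : Perm (Stair m)} (hg : HasRepeat g) : HasRepeat (flipRep g) := by
  have hσ := (flipRep_spec hg).1
  obtain ⟨p, h1, h2, h3⟩ := hg
  exact ⟨p, h1, h2, ((congrFun hσ p.1).trans h3).trans (congrFun hσ p.2).symm⟩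

theorem card_inBoth (m : ℕ) :
    ((((univ : Finset (Perm (Stair m))).filter fun g => InBoth g).card : ℕ) : ZMod 2) = 1 := by
  classical
  have hsplit : ∑ g ∈ (univ : Finset (Perm (Stair m))).filter (fun g => InBoth g ∧ HasRepeat g),
      (1 : ZMod 2) = 0 := by
    refine sum_involution (fun g _ => flipRep g) (fun g _ => CharTwo.add_self_eq_zero _)
      (fun g hg _ => (flipRep_spec (mem_filter.mp hg).2.2).2.2.1) (fun g hg => ?_)
      (fun g hg => (flipRep_spec (mem_filter.mp hg).2.2).2.2.2)
    obtain ⟨h1, h2⟩ := (mem_filter.mp hg).2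
    exact mem_filter.mpr ⟨mem_univ _, (flipRep_spec h2).2.1 h1, hasRepeat_flipRep h2⟩
  have hin : InBoth (antiPerm m) := by
    refine ⟨⟨fun x => ?_, fun x y e => ?_⟩, fun x => ?_, fun x y e => ?_⟩
    · have h2 : (stairRow m x : ℕ) + stairCol m x < m := x.2
      simp only [antiPerm_row]
      omega
    · simp only [antiPerm_row, Prod.mk.injEq] at e
      have h1 : (stairRow m x : ℕ) + stairCol m x < m := x.2
      have h2 : (stairRow m y : ℕ) + stairCol m y < m := y.2
      exact stair_ext (by omega) e.2
    · exact x.2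
    · simp only [antiPerm_col, Prod.mk.injEq] at e
      exact stair_ext e.1 e.2
  have hnorep : ¬ HasRepeat (antiPerm m) := by
    rintro ⟨⟨a, b⟩, hne, hr, hs⟩
    change stairRow m a = stairRow m b at hr
    change stairRow m (antiPerm m a) = stairRow m (antiPerm m b) at hs
    have e := congrArg Fin.val hs
    rw [antiPerm_row, antiPerm_row] at e
    have h1 : (stairRow m a : ℕ) + stairCol m a < m := a.2
    have h2 : (stairRow m b : ℕ) + stairCol m b < m := b.2
    have h3 : (stairRow m a : ℕ) = stairRow m b := congrArg Fin.val hr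
    exact hne (stair_ext h3 (show (stairCol m a : ℕ) = stairCol m b by omega))
  have hone : ((univ : Finset (Perm (Stair m))).filter fun g => InBoth g ∧ ¬ HasRepeat g)
      = {antiPerm m} := by
    refine Finset.ext fun g => ?_
    simp only [mem_filter, mem_univ, true_and, mem_singleton]
    refine ⟨fun h => Equiv.ext fun x => ?_, fun h => h ▸ ⟨hin, hnorep⟩⟩
    have e := forced h.1 h.2 x
    exact stair_ext (by rw [antiPerm_row]; omega) (by rw [antiPerm_col]; exact e.2)
  rw [sum_const, nsmul_eq_mul, mul_one] at hsplit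
  rw [← card_filter_add_card_filter_not (s := (univ : Finset (Perm (Stair m))).filter
      fun g => InBoth g) HasRepeat, Nat.cast_add, filter_filter, filter_filter, hone, hsplit,
    card_singleton, Nat.cast_one, zero_add]

/-- The products of two translates sum to a translate. -/
theorem conv_rcSet (a b : Perm (Stair m)) :
    ∑ g : Perm (Stair m), (if a * g ∈ rcSet m ∧ g⁻¹ * b ∈ rcSet m then (1 : ZMod 2) else 0)
      = if a * b ∈ rcSet m then 1 else 0 := by
  rw [← Equiv.sum_comp (Equiv.mulLeft a⁻¹)]
  simp only [Equiv.coe_mulLeft, mul_inv_cancel_left, mul_inv_rev, inv_inv, mul_assoc]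
  set x := a * b
  by_cases hx : x ∈ rcSet m
  · rw [if_pos hx]
    obtain ⟨⟨r, c⟩, -, e⟩ := mem_image.mp hx
    rw [← Equiv.sum_comp (Equiv.mulLeft (r : Perm (Stair m)))]
    refine Eq.trans ?_ (card_inBoth m)
    rw [← sum_boole]
    refine sum_congr rfl fun g _ => if_congr ?_ rfl rfl
    rw [← mem_both_iff, Equiv.coe_mulLeft, ← e]
    have hmul : ∀ (r' : stab (stairRow m)) (c' : stab (stairCol m)) (h : Perm (Stair m)),
        h ∈ rcSet m → (r' : Perm (Stair m)) * h * c' ∈ rcSet m := fun r' c' h hh => by
      obtain ⟨p, -, rfl⟩ := mem_image.mp hh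
      exact mem_image.mpr ⟨(r' * p.1, p.2 * c'), mem_univ _, by simp [mul_assoc]⟩
    constructor
    · rintro ⟨h1, h2⟩
      have h1' := hmul r⁻¹ 1 _ h1
      have h2' := hmul 1 c⁻¹ _ h2
      simp [mul_assoc] at h1' h2'
      exact ⟨h1', h2'⟩
    · rintro ⟨h1, h2⟩
      have h1' := hmul r 1 _ h1
      have h2' := hmul 1 c _ h2
      simp [mul_assoc] at h1' h2' ⊢
      exact ⟨h1', h2'⟩
  · rw [if_neg hx]
    have hni : ¬ IsCellMap (fun y => (stairRow m y : ℕ)) (fun y => (stairCol m y : ℕ)) x :=
      fun h => hx ((mem_rcSet_iff x).mpr h)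
    by_cases hdup : ∃ p q, p ≠ q ∧ stairCol m p = stairCol m q ∧
        stairRow m (x p) = stairRow m (x q)
    · obtain ⟨p, q, hne, hc, hr⟩ := hdup
      have hs : swap (x p) (x q) ∈ stab (stairRow m) := fun y => by
        rcases eq_or_ne y (x p) with rfl | h1
        · rw [swap_apply_left, hr]
        rcases eq_or_ne y (x q) with rfl | h2
        · rw [swap_apply_right, hr]
        · rw [swap_apply_of_ne_of_ne h1 h2]
      have hc' : swap p q ∈ stab (stairCol m) := fun y => by
        rcases eq_or_ne y p with rfl | h1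
        · rw [swap_apply_left, hc]
        rcases eq_or_ne y q with rfl | h2
        · rw [swap_apply_right, hc]
        · rw [swap_apply_of_ne_of_ne h1 h2]
      have hconj : swap (x p) (x q) * x = x * swap p q := (Equiv.mul_swap_eq_swap_mul x p q).symm
      have himp : ∀ g : Perm (Stair m), g ∈ rcSet m ∧ g⁻¹ * x ∈ rcSet m →
          swap (x p) (x q) * g ∈ rcSet m ∧ (swap (x p) (x q) * g)⁻¹ * x ∈ rcSet m := by
        rintro g ⟨h1, h2⟩
        refine ⟨?_, ?_⟩
        · obtain ⟨u, -, rfl⟩ := mem_image.mp h1
          exact mem_image.mpr ⟨(⟨_, hs⟩ * u.1, u.2), mem_univ _, by simp [mul_assoc]⟩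
        · rw [mul_inv_rev, swap_inv, mul_assoc, hconj, ← mul_assoc]
          obtain ⟨u, -, hu⟩ := mem_image.mp h2
          exact mem_image.mpr ⟨(u.1, u.2 * ⟨_, hc'⟩), mem_univ _, by
            rw [← hu]; simp [mul_assoc]⟩
      refine sum_involution (fun g _ => swap (x p) (x q) * g) (fun g _ => ?_) (fun g _ _ h => ?_)
        (fun g _ => mem_univ _) fun g _ => by simp
      · rw [if_congr (show (swap (x p) (x q) * g ∈ rcSet m ∧
            (swap (x p) (x q) * g)⁻¹ * x ∈ rcSet m) ↔ (g ∈ rcSet m ∧ g⁻¹ * x ∈ rcSet m) from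
            ⟨fun h => by simpa [← mul_assoc] using himp _ h, himp g⟩) rfl rfl]
        exact CharTwo.add_self_eq_zero _
      · exact hne (x.injective (swap_eq_one_iff.mp (mul_eq_right.mp h)))
    · refine absurd ?_ hni
      refine ⟨fun y => ?_, fun y z h => ?_⟩
      · have := row_bound (v := fun y => (stairRow m (x (transpose m y)) : ℕ))
          (w := fun y => (stairCol m (x (transpose m y)) : ℕ)) (fun y => (x (transpose m y)).2)
          (fun y z e => (transpose m).injective (x.injective
            (stair_ext (congrArg Prod.fst e) (congrArg Prod.snd e))))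
          (fun y z h1 h2 => by
            by_contra hne
            exact hdup ⟨transpose m y, transpose m z, fun e => hne ((transpose m).injective e),
              h1, Fin.ext h2⟩) (transpose m y)
        rw [show transpose m (transpose m y) = y from rfl] at this
        exact this
      · simp only [Prod.mk.injEq] at h
        by_contra hne
        exact hdup ⟨y, z, hne, Fin.ext h.2, Fin.ext h.1⟩

end Vale.Agent.P197.Saxl
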