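import Mathlib

/-!
# P197: Specht modules of diagrams, the staircase, and the statement of Saxl's conjecture

`α` is a finite set of cells, `row` and `col` give the row and the column of a cell.  A tabloid is
the function sending an entry to its row, the permutation module consists of the complex functions
on those, and the Specht module is the span of the translates of the polytabloid.
-/

namespace Vale.Agent.P197.Saxl

open scoped TensorProduct

variable {α ι κ : Type} [Fintype α] [DecidableEq α]

/-- Permutations of the cells preserving a labelling. -/
def stab (f : α → ι) : Subgroup (Equiv.Perm α) where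
  carrier := {g | ∀ x, f (g x) = f x}
  one_mem' := fun _ => rfl
  mul_mem' := fun {a b} ha hb x => by rw [Equiv.Perm.mul_apply, ha, hb]
  inv_mem' := fun {a} ha x => by simpa using (ha (a⁻¹ x)).symm

instance [DecidableEq ι] (f : α → ι) : DecidablePred (· ∈ stab f) := fun g =>
  inferInstanceAs (Decidable (∀ x, f (g x) = f x))

/-- The permutation module on row assignments: `(g v) T = v (T ∘ g)`. -/
def tabRep (α ι : Type) : Representation ℂ (Equiv.Perm α) ((α → ι) → ℂ) where
  toFun g :=
    { toFun := fun v T => v (T ∘ g)
      map_add' := fun _ _ => rfl
      map_smul' := fun _ _ => rfl }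
  map_one' := rfl
  map_mul' _ _ := rfl

variable [DecidableEq ι] [DecidableEq κ]

/-- The indicator of the tabloid of the diagram. -/
def tabloid (row : α → ι) : (α → ι) → ℂ := fun T => if T = row then 1 else 0

/-- The polytabloid: the signed sum over the column group. -/
noncomputable def polytabloid (row : α → ι) (col : α → κ) : (α → ι) → ℂ :=
  ∑ c : stab col, ((Equiv.Perm.sign (c : Equiv.Perm α) : ℤ) : ℂ) • tabRep α ι c (tabloid row)

/-- The Specht module: the span of the translates of the polytabloid. -/
noncomputable def specht (row : α → ι) (col : α → κ) : Submodule ℂ ((α → ι) → ℂ) :=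
  Submodule.span ℂ (Set.range fun g : Equiv.Perm α => tabRep α ι g (polytabloid row col))

theorem tabRep_mem_specht (row : α → ι) (col : α → κ) (g : Equiv.Perm α) :
    ∀ v ∈ specht row col, tabRep α ι g v ∈ specht row col := by
  intro v hv
  induction hv using Submodule.span_induction with
  | mem x hx =>
    obtain ⟨h, rfl⟩ := hx
    exact Submodule.subset_span ⟨g * h, by simp [map_mul]⟩
  | zero => simp
  | add x y _ _ hx hy => rw [map_add]; exact add_mem hx hy
  | smul c x _ hx => rw [map_smul]; exact Submodule.smul_mem _ c hx

/-- The action on the Specht module. -/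
noncomputable def spechtRep (row : α → ι) (col : α → κ) :
    Representation ℂ (Equiv.Perm α) (specht row col) where
  toFun g := (tabRep α ι g).restrict (tabRep_mem_specht row col g)
  map_one' := rfl
  map_mul' _ _ := rfl

/-- The cells of the staircase `(m, m - 1, ..., 1)`; their number is `m (m + 1) / 2`. -/
abbrev Stair (m : ℕ) : Type := {p : Fin m × Fin m // (p.1 : ℕ) + p.2 < m}

/-- The row of a cell. -/
def stairRow (m : ℕ) (x : Stair m) : Fin m := x.1.1

/-- The column of a cell. -/
def stairCol (m : ℕ) (x : Stair m) : Fin m := x.1.2

/-- The staircase Specht module with its action. -/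
noncomputable def stairRep (m : ℕ) :
    Representation ℂ (Equiv.Perm (Stair m)) (specht (stairRow m) (stairCol m)) :=
  spechtRep (stairRow m) (stairCol m)

/-- The lemma: the operators of `r c`, with `r` in the row group and `c` in the column group, are
linearly independent on the staircase Specht module. -/
def StaircaseIndep : Prop :=
  ∀ m : ℕ, LinearIndependent ℂ (fun p : stab (stairRow m) × stab (stairCol m) =>
    stairRep m ((p.1 : Equiv.Perm (Stair m)) * (p.2 : Equiv.Perm (Stair m))))

/-- Saxl's conjecture: every nonzero representation of `S_{m(m+1)/2}`, in particular every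
irreducible one, has a nonzero equivariant map to the tensor square of the staircase Specht
module.  For the irreducible `W = S^ν` this says `g(ρ_m, ρ_m, ν) > 0`, as that number is the
dimension of the space of such maps. -/
def SaxlStatement : Prop :=
  ∀ (m : ℕ) (W : Type) [AddCommGroup W] [Module ℂ W] [Nontrivial W]
    (τ : Representation ℂ (Equiv.Perm (Stair m)) W),
    ∃ T : W →ₗ[ℂ] (specht (stairRow m) (stairCol m) ⊗[ℂ] specht (stairRow m) (stairCol m)),
      T ≠ 0 ∧ ∀ g, T ∘ₗ τ g = ((stairRep m).tprod (stairRep m)) g ∘ₗ T

end Vale.Agent.P197.Saxl
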