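import Vale.Agent.P197.Saxl.HookOdd

/-!
# P197: the involution criterion with a prescribed number of fixed points

On tabloid vectors `v` mod 2 the form `⟨u v, v⟩` of an involution `u` is the linear form
`∑_{τ fixed by u} v τ`.  If all products of two translates are orthogonal to `C R C` of `μ`, the
convolution identity of the staircase turns the count weighted by any class function of `u` into
such a sum at a vector orthogonal to the whole span, so it is even.
-/

namespace Vale.Agent.P197.Saxl

open Finset Equiv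

/-- The number of fixed points. -/
def fixCount {α : Type} [Fintype α] [DecidableEq α] (π : Perm α) : ℕ :=
  ((univ : Finset α).filter fun x => π x = x).card

theorem fixCount_conj {α : Type} [Fintype α] [DecidableEq α] (g π : Perm α) :
    fixCount (g * π * g⁻¹) = fixCount π := by
  refine (card_equiv g fun x => ?_).symm
  rw [mem_filter, mem_filter]
  simp

variable {m : ℕ}

/-- For every strict `μ`, as a tableau, some labellings and some number `F` make the number of
pairs (involution with exactly `F` fixed points, column permutation) odd. -/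
def FixedPointWitness : Prop :=
  ∀ (m : ℕ) (rowμ colμ : Stair m → ℕ), IsTableau rowμ colμ →
    (∀ i i', (block rowμ i).Nonempty → (block rowμ i).card = (block rowμ i').card → i = i') →
    ∃ (rlab clab : Stair m → ℕ) (F : ℕ),
      Odd ((univ : Finset (Perm (Stair m) × stab colμ)).filter fun q =>
        q.1 * q.1 = 1 ∧ fixCount q.1 = F ∧ IsCellMap rlab clab q.1 ∧
          ∀ x, rowμ ((q.2 : Perm (Stair m)) (q.1 x)) = rowμ ((q.2 : Perm (Stair m)) x)).card

section forms

variable {T : Type} [Fintype T] [DecidableEq T]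

theorem sum_fixed_eq_dot (v : T → ZMod 2) (e : Perm T) (he : e * e = 1) :
    ∑ t, (if e t = t then v t else 0) = ∑ t, v t * v (e t) := by
  rw [← sub_eq_zero, ← sum_sub_distrib]
  have hee : ∀ t, e (e t) = t := fun t => by rw [← Perm.mul_apply, he, Perm.one_apply]
  refine sum_involution (fun t _ => e t) (fun t _ => ?_) (fun t _ hne heq => hne ?_)
    (fun t _ => mem_univ _) (fun t _ => hee t)
  · by_cases h : e t = t
    · simp only [h, if_true]
      exact CharTwo.add_self_eq_zero (R := ZMod 2) _
    · have h' : e (e t) ≠ e t := fun h' => h (e.injective h')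
      rw [if_neg h, if_neg h', hee, mul_comm (v (e t))]
      exact CharTwo.add_self_eq_zero (R := ZMod 2) _
  · rw [if_pos heq, heq, sub_eq_zero]
    rcases (show ∀ z : ZMod 2, z = 0 ∨ z = 1 by decide) (v t) with h | h <;> simp [h]

end forms

variable {rowμ colμ : Stair m → ℕ}

/-- The tabloids of `μ`. -/
abbrev Tabloid (rowμ : Stair m → ℕ) : Type := Perm (Stair m) ⧸ stab rowμ

/-- The translated polytabloid mod 2. -/
noncomputable def polyVec (rowμ colμ : Stair m → ℕ) (g : Perm (Stair m)) (t : Tabloid rowμ) :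
    ZMod 2 :=
  open Classical in
  ∑ c : stab colμ, if ((g * c : Perm (Stair m)) : Tabloid rowμ) = t then 1 else 0

/-- The form on fixed tabloids. -/
noncomputable def fixForm (h : Perm (Stair m)) (v : Tabloid rowμ → ZMod 2) : ZMod 2 :=
  open Classical in
  ∑ t : Tabloid rowμ, if h • t = t then v t else 0

theorem fixForm_polyVec (h g : Perm (Stair m)) :
    fixForm h (polyVec rowμ colμ g) = ∑ c : stab colμ,
      if (c : Perm (Stair m))⁻¹ * (g⁻¹ * h * g) * c ∈ stab rowμ then 1 else 0 := by
  classical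
  simp only [fixForm, polyVec]
  rw [sum_congr rfl fun t _ => ite_sum_zero _ _ _, sum_comm]
  refine sum_congr rfl fun c _ => ?_
  rw [sum_eq_single ((g * c : Perm (Stair m)) : Tabloid rowμ)]
  · rw [if_pos rfl]
    refine if_congr ?_ rfl rfl
    rw [MulAction.Quotient.smul_mk, smul_eq_mul, eq_comm, QuotientGroup.eq]
    simp [mul_assoc]
  · intro t _ hne
    simp [hne.symm]
  · exact fun h' => absurd (mem_univ _) h'

theorem polyVec_smul (h g : Perm (Stair m)) (t : Tabloid rowμ) :
    polyVec rowμ colμ (h * g) t = polyVec rowμ colμ g (h⁻¹ • t) := by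
  classical
  refine sum_congr rfl fun c _ => if_congr ?_ rfl rfl
  rw [eq_inv_smul_iff, MulAction.Quotient.smul_mk, smul_eq_mul, mul_assoc]

theorem dot_polyVec (g k : Perm (Stair m)) :
    ∑ t, polyVec rowμ colμ g t * polyVec rowμ colμ k t
      = zfun colμ rowμ (g⁻¹ * k) := by
  classical
  rw [zfun_eq_triples]
  have e : ∀ t, polyVec rowμ colμ g t * polyVec rowμ colμ k t = ∑ c : stab colμ, ∑ c' : stab colμ,
      (if ((g * c : Perm (Stair m)) : Tabloid rowμ) = t then (1 : ZMod 2) else 0) *
        (if ((k * c' : Perm (Stair m)) : Tabloid rowμ) = t then 1 else 0) := fun t => by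
    rw [polyVec, polyVec, sum_mul_sum]
  simp only [e]
  rw [sum_comm, Fintype.sum_prod_type]
  refine sum_congr rfl fun c _ => ?_
  rw [Fintype.sum_prod_type, sum_comm]
  conv_rhs => rw [sum_comm]
  refine Fintype.sum_equiv (Equiv.inv (stab colμ)) _ _ fun c' => ?_
  rw [sum_eq_single ((g * c : Perm (Stair m)) : Tabloid rowμ)]
  · rw [if_pos rfl, one_mul]
    have hiff : ((k * c' : Perm (Stair m)) : Tabloid rowμ) = ((g * c : Perm (Stair m)) : Tabloid rowμ)
        ↔ (c : Perm (Stair m))⁻¹ * (g⁻¹ * k) * c' ∈ stab rowμ := by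
      rw [eq_comm, QuotientGroup.eq]
      simp [mul_assoc]
    by_cases hmem : (c : Perm (Stair m))⁻¹ * (g⁻¹ * k) * c' ∈ stab rowμ
    · rw [if_pos (hiff.mpr hmem), sum_eq_single ⟨_, hmem⟩]
      · rw [if_pos]
        simp [mul_assoc]
      · intro r _ hne
        refine if_neg fun e => hne (Subtype.ext ?_)
        show (r : Perm (Stair m)) = (c : Perm (Stair m))⁻¹ * (g⁻¹ * k) * c'
        rw [← e]
        simp [mul_assoc]
      · exact fun h' => absurd (mem_univ _) h'
    · rw [if_neg (fun e => hmem (hiff.mp e)), sum_eq_zero]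
      intro r _
      refine if_neg fun e => hmem ?_
      rw [← e]
      simp [mul_assoc]
  · intro t _ hne
    rw [if_neg hne.symm, zero_mul]
  · exact fun h' => absurd (mem_univ _) h'

theorem zfun_symm (x : Perm (Stair m)) : zfun colμ rowμ x⁻¹ = zfun colμ rowμ x := by
  classical
  have e1 := dot_polyVec (rowμ := rowμ) (colμ := colμ) x 1
  have e2 := dot_polyVec (rowμ := rowμ) (colμ := colμ) 1 x
  simp only [inv_one, one_mul, mul_one] at e1 e2
  rw [← e1, ← e2]
  exact sum_congr rfl fun t _ => mul_comm _ _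

/-- Orthogonal vectors of the span are killed by the forms of involutions. -/
theorem fixForm_eq_zero {h : Perm (Stair m)} (hh : h * h = 1) (a : Perm (Stair m) → ZMod 2)
    (horth : ∀ k, ∑ g, a g * zfun colμ rowμ (g⁻¹ * k) = 0) :
    ∑ g, a g * fixForm h (polyVec rowμ colμ g) = 0 := by
  classical
  let v : Tabloid rowμ → ZMod 2 := fun t => ∑ g, a g * polyVec rowμ colμ g t
  have hv : ∀ k, ∑ t, v t * polyVec rowμ colμ k t = 0 := fun k => by
    simp only [v, sum_mul, mul_assoc]
    rw [sum_comm]
    simp only [← mul_sum, dot_polyVec, horth]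
  have e : ∑ g, a g * fixForm h (polyVec rowμ colμ g) = fixForm h v := by
    simp only [fixForm, v, mul_sum, mul_ite, mul_zero]
    rw [sum_comm]
    exact sum_congr rfl fun t _ => by split_ifs <;> simp
  rw [e, fixForm]
  refine (sum_fixed_eq_dot v (MulAction.toPerm h) (Equiv.ext fun t => by
    simp [← mul_smul, hh])).trans ?_
  have hstep : ∀ t, v (h • t) = ∑ g, a g * polyVec rowμ colμ (h * g) t := fun t => by
    refine sum_congr rfl fun g _ => ?_
    rw [polyVec_smul, inv_eq_of_mul_eq_one_right hh]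
  simp only [MulAction.toPerm_apply, hstep, mul_sum]
  rw [sum_comm]
  refine sum_eq_zero fun g _ => ?_
  simp only [mul_left_comm (v _), ← mul_sum, hv, mul_zero]

/-- The heart of the criterion. -/
theorem count_even_of_orth (h0 : ∀ q, ∑ g, zfun colμ rowμ g * pairFun q g = 0)
    (w : Perm (Stair m) → ZMod 2) (hw : ∀ g u, w (g * u * g⁻¹) = w u)
    (hsupp : ∀ u, w u ≠ 0 → u * u = 1) (a b : Perm (Stair m)) :
    ∑ u, w u * fixForm u (polyVec rowμ colμ 1) * (if a * u * b ∈ rcSet m then 1 else 0) = 0 := by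
  classical
  have hexp : ∀ u, (if a * u * b ∈ rcSet m then (1 : ZMod 2) else 0)
      = ∑ g : Perm (Stair m),
        if a * (u * g) ∈ rcSet m ∧ g⁻¹ * b ∈ rcSet m then 1 else 0 := fun u => by
    rw [← conv_rcSet (a * u) b]
    exact sum_congr rfl fun g _ => by rw [mul_assoc]
  simp only [hexp, mul_sum]
  rw [sum_comm]
  -- move `u` to `g h g⁻¹`
  rw [sum_congr rfl fun g _ => (Equiv.sum_comp ((Equiv.mulLeft g).trans (Equiv.mulRight g⁻¹)) fun u =>
    w u * fixForm u (polyVec rowμ colμ 1) *
      (if a * (u * g) ∈ rcSet m ∧ g⁻¹ * b ∈ rcSet m then (1 : ZMod 2) else 0)).symm]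
  rw [sum_comm]
  refine sum_eq_zero fun h _ => ?_
  by_cases hz : w h = 0
  · exact sum_eq_zero fun g _ => by simp [hw, hz]
  have hh := hsupp h hz
  have hterm : ∀ g : Perm (Stair m),
      fixForm (g * h * g⁻¹) (polyVec rowμ colμ 1) = fixForm h (polyVec rowμ colμ g⁻¹) := fun g => by
    rw [fixForm_polyVec, fixForm_polyVec]
    simp [mul_assoc]
  simp only [Equiv.trans_apply, Equiv.coe_mulLeft, Equiv.coe_mulRight, hw, hterm,
    inv_mul_cancel_right, mul_assoc (w h)]
  rw [← mul_sum]
  refine mul_eq_zero_of_right _ ?_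
  let q : Pair m := ((a, h), (transpose m * b⁻¹, transpose m))
  have hq : ∀ g, (if a * (g * h) ∈ rcSet m ∧ g⁻¹ * b ∈ rcSet m then (1 : ZMod 2) else 0)
      = pairFun q g := fun g => by
    refine if_congr ?_ rfl rfl
    simp only [q, ← mul_assoc]
    rw [mul_assoc (transpose m) b⁻¹ g, transpose_conj_mem_iff, mul_inv_rev, inv_inv]
  simp only [hq]
  rw [← Equiv.sum_comp (Equiv.inv (Perm (Stair m)))]
  simp only [Equiv.inv_apply, inv_inv]
  rw [sum_congr rfl fun g _ => mul_comm _ (pairFun q g⁻¹)]
  refine fixForm_eq_zero hh _ fun k => ?_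
  rw [← Equiv.sum_comp (Equiv.inv (Perm (Stair m)))]
  simp only [Equiv.inv_apply, inv_inv]
  rw [← Equiv.sum_comp (Equiv.mulRight k⁻¹)]
  have hmove : ∀ g, pairFun q (g * k⁻¹)
      = pairFun ((q.1.1, k⁻¹ * q.1.2), (q.2.1, k⁻¹ * q.2.2)) g := fun g => by
    simp [pairFun, mul_assoc]
  simp only [Equiv.coe_mulRight, inv_mul_cancel_right, hmove]
  rw [sum_congr rfl fun g _ => mul_comm _ (zfun colμ rowμ g)]
  exact h0 _

theorem parity_of_fixedPoint (h : FixedPointWitness) : ParityWitness := by
  classical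
  intro m rowμ colμ hT hstrict
  obtain ⟨rlab, clab, F, hodd⟩ := h m rowμ colμ hT hstrict
  by_contra hno
  have h0 : ∀ q, ∑ g, zfun colμ rowμ g * pairFun q g = 0 := fun q => by
    rw [show (∑ g, zfun colμ rowμ g * pairFun q g) = _ from
      sum_zfun_mul (row := colμ) (col := rowμ)
        (fun g => q.1.1 * g * q.1.2 ∈ rcSet m ∧ q.2.1 * g * q.2.2 ∈ rcSet m)]
    exact ZMod.natCast_eq_zero_iff_even.mpr
      (Nat.not_odd_iff_even.mp fun ho => hno ⟨_, _, _, _, ho⟩)
  obtain ⟨⟨π₀, c₀⟩, h₀⟩ := card_pos.mp hodd.pos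
  obtain ⟨hπ₀, -, hcell, -⟩ := (mem_filter.mp h₀).2
  obtain ⟨a, b, hkey⟩ := exists_translate hπ₀ hcell
  have heven := count_even_of_orth h0
    (fun u => if u * u = 1 ∧ fixCount u = F then 1 else 0)
    (fun g u => if_congr (and_congr
      (by rw [show g * u * g⁻¹ * (g * u * g⁻¹) = g * (u * u) * g⁻¹ by simp [mul_assoc],
        mul_inv_eq_one, mul_eq_left])
      (by rw [fixCount_conj])) rfl rfl)
    (fun u hu => by
      by_contra h'
      exact hu (if_neg fun h'' => h' h''.1)) a b
  refine one_ne_zero ((hodd.natCast_zmod_two.symm.trans ?_).trans heven)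
  rw [← sum_boole, Fintype.sum_prod_type]
  refine sum_congr rfl fun u _ => ?_
  rw [fixForm_polyVec, mul_sum, sum_mul]
  refine Fintype.sum_equiv (Equiv.inv (stab colμ)) _ _ fun c => ?_
  have hiff : (∀ x, rowμ ((c : Perm (Stair m)) (u x)) = rowμ ((c : Perm (Stair m)) x))
      ↔ (c : Perm (Stair m)) * u * (c : Perm (Stair m))⁻¹ ∈ stab rowμ := by
    constructor
    · intro hx y
      simpa using hx ((c : Perm (Stair m))⁻¹ y)
    · intro hx x
      simpa using hx ((c : Perm (Stair m)) x)
  simp only [hkey, Equiv.inv_apply, Subgroup.coe_inv, inv_one, one_mul, mul_one, inv_inv, hiff]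
  rw [ite_zero_mul_ite_zero, ite_zero_mul_ite_zero, mul_one, mul_one]
  exact if_congr (by tauto) rfl rfl

/-- Saxl's conjecture follows from the fixed point witnesses. -/
theorem saxl_of_fixedPoint (h : FixedPointWitness) : SaxlStatement :=
  saxl_of_parity (parity_of_fixedPoint h)


end Vale.Agent.P197.Saxl
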