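import Vale.Agent.P197.Saxl.Straighten

/-!
# P197: every nonzero translation invariant space mod 2 contains some `z_μ`, `μ` strict

`zfun x = #{(r, c, r') ∈ R × C × R : r c r' = x}` mod 2 for a tableau with row group `R` and column
group `C`.  It is nonzero only when the column lengths of the tableau are pairwise distinct.
-/

namespace Vale.Agent.P197.Saxl

open Finset Equiv

variable {α : Type} [Fintype α] [DecidableEq α] {row col : α → ℕ}

/-- The indicator of the products column times row. -/
def crInd (row col : α → ℕ) (u : Perm α) : ZMod 2 :=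
  ∑ c : stab col, ∑ r : stab row, if (c : Perm α) * r = u then 1 else 0

/-- `∑_{r ∈ R} [r x ∈ C R]`. -/
def zfun (row col : α → ℕ) (x : Perm α) : ZMod 2 :=
  ∑ r : stab row, crInd row col ((r : Perm α) * x)

/-- Closure under translations on both sides. -/
def TransInv (U : Submodule (ZMod 2) (Perm α → ZMod 2)) : Prop :=
  ∀ a ∈ U, ∀ g, (fun x => a (g * x)) ∈ U ∧ (fun x => a (x * g)) ∈ U

theorem crInd_of_mem (hT : IsTableau row col) (c₀ : stab col) (r₀ : stab row) :
    crInd row col ((c₀ : Perm α) * r₀) = 1 := by
  have huniq : ∀ (c : stab col) (r : stab row),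
      (c : Perm α) * r = c₀ * r₀ → c = c₀ ∧ r = r₀ := fun c r h => by
    have e : ((c₀⁻¹ * c : stab col) : Perm α) = ((r₀ * r⁻¹ : stab row) : Perm α) := by
      show (c₀ : Perm α)⁻¹ * c = r₀ * (r : Perm α)⁻¹
      rw [eq_mul_inv_iff_mul_eq, mul_assoc, h, inv_mul_cancel_left]
    have h1 : ((c₀⁻¹ * c : stab col) : Perm α) = 1 := Equiv.ext fun p =>
      hT.inj (Prod.ext (by
        show row (((c₀⁻¹ * c : stab col) : Perm α) p) = row p
        rw [e]
        exact (r₀ * r⁻¹ : stab row).2 p) ((c₀⁻¹ * c : stab col).2 p))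
    have h2 : c = c₀ := (inv_mul_eq_one.mp (Subtype.ext h1 : c₀⁻¹ * c = 1)).symm
    refine ⟨h2, Subtype.ext ?_⟩
    rw [h2] at h
    exact mul_left_cancel h
  rw [crInd, sum_eq_single c₀, sum_eq_single r₀, if_pos rfl]
  · exact fun r _ hne => if_neg fun h => hne (huniq c₀ r h).2
  · exact fun h => absurd (mem_univ _) h
  · exact fun c _ hne => sum_eq_zero fun r _ => if_neg fun h => hne (huniq c r h).1
  · exact fun h => absurd (mem_univ _) h

/-- The row symmetrisation of a column invariant function, after a translation. -/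
theorem sum_translate (hT : IsTableau row col) {b : Perm α → ZMod 2} (hb : LeftInv col b)
    (u x : Perm α) :
    ∑ r : stab row, b (u * r * x) = crInd row col u * lsum row b x := by
  by_cases h : ∃ c : stab col, ∃ r : stab row, (c : Perm α) * r = u
  · obtain ⟨c, r₀, rfl⟩ := h
    rw [crInd_of_mem hT, one_mul]
    have e : ∀ r : stab row, b ((c : Perm α) * r₀ * r * x) = b (((r₀ * r : stab row) : Perm α) * x) :=
      fun r => by rw [mul_assoc, mul_assoc, hb c c.2, Subgroup.coe_mul, mul_assoc]
    rw [sum_congr rfl fun r _ => e r]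
    exact Equiv.sum_comp (Equiv.mulLeft r₀) fun r : stab row => b ((r : Perm α) * x)
  · have hzero : crInd row col u = 0 :=
      sum_eq_zero fun c _ => sum_eq_zero fun r _ => if_neg fun e => h ⟨c, r, e⟩
    rw [hzero, zero_mul]
    have hni : ¬ Function.Injective fun p => (row ((u⁻¹ : Perm α) p), col p) := fun hinj => by
      obtain ⟨r, hr, c, hc, e⟩ := hT.mem_rc (g := u⁻¹) hinj
      refine h ⟨⟨c⁻¹, inv_mem hc⟩, ⟨r⁻¹, inv_mem hr⟩, ?_⟩
      show c⁻¹ * r⁻¹ = u
      rw [← mul_inv_rev, ← e, inv_inv]
    obtain ⟨p, q, hne, hc, he⟩ := exists_col_swap hni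
    have hτ : u * swap ((u⁻¹ : Perm α) p) ((u⁻¹ : Perm α) q) = swap p q * u := by
      rw [Equiv.mul_swap_eq_swap_mul]
      simp
    refine sum_involution (fun r _ => (⟨_, swap_mem_stab he⟩ : stab row) * r) (fun r _ => ?_)
      (fun r _ _ h' => hne ?_) (fun r _ => mem_univ _) fun r _ => ?_
    · rw [Subgroup.coe_mul, ← mul_assoc u, hτ, mul_assoc (swap p q), mul_assoc (swap p q),
        hb _ (swap_mem_stab hc)]
      exact two_zero _
    · exact (u⁻¹ : Perm α).injective (swap_eq_one_iff.mp (congrArg Subtype.val (mul_eq_right.mp h')))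
    · exact Subtype.ext (by simp [← mul_assoc])

theorem lsum_translate (hT : IsTableau row col) {b : Perm α → ZMod 2} (hb : LeftInv col b)
    (g x : Perm α) :
    lsum row (fun y => lsum row b (g * y)) x = zfun row col g * lsum row b x := by
  unfold lsum zfun
  rw [sum_comm, sum_mul]
  refine sum_congr rfl fun r' _ => ?_
  refine Eq.trans ?_ (sum_translate hT hb ((r' : Perm α) * g) x)
  exact sum_congr rfl fun r _ => by simp only [mul_assoc]

/-- The permutation exchanging two columns of equal length. -/
theorem zfun_eq_zero (hT : IsTableau row col) {j j' : ℕ} (hne : j ≠ j')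
    (hj : (block col j).Nonempty) (heq : (block col j).card = (block col j').card) :
    zfun row col = 0 := by
  classical
  have hex : ∀ a b, (block col a).card = (block col b).card → ∀ p, col p = a →
      ∃ q, row q = row p ∧ col q = b := by
    intro a b hab p hp
    by_contra hno
    have h1 : (block col b).card ≤ row p := by
      refine (card_le_card_of_injOn row (t := range (row p)) (fun y hy => ?_) ?_).trans (card_range _).le
      · refine mem_coe.mpr (mem_range.mpr (not_le.mp fun hle => hno ?_))
        obtain ⟨q, h1, h2⟩ := hT.down y (row p) b hle (mem_block.mp hy).ge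
        exact ⟨q, h1, h2⟩
      · intro y hy z hz h
        exact hT.inj (Prod.ext h ((mem_block.mp (mem_coe.mp hy)).trans
          (mem_block.mp (mem_coe.mp hz)).symm))
    have h2 : row p < (block col (col p)).card := by
      have h3 := hT.swap.card_left p
      refine lt_of_eq_of_lt h3.symm (card_lt_card ((ssubset_iff_of_subset (filter_subset _ _)).mpr
        ⟨p, mem_block.mpr rfl, fun h => lt_irrefl _ (mem_filter.mp h).2⟩))
    rw [hp] at h2
    omega
  have hφ : ∀ p, ∃ q, row q = row p ∧ col q = Equiv.swap j j' (col p) := by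
    intro p
    rcases eq_or_ne (col p) j with h | h
    · rw [h, swap_apply_left]; exact hex j j' heq p h
    rcases eq_or_ne (col p) j' with h' | h'
    · rw [h', swap_apply_right]; exact hex j' j heq.symm p h'
    · exact ⟨p, rfl, (swap_apply_of_ne_of_ne h h').symm⟩
  choose φ hφ1 hφ2 using hφ
  have hinv : Function.Involutive φ := fun p =>
    hT.inj (Prod.ext (show row (φ (φ p)) = row p by rw [hφ1, hφ1])
      (show col (φ (φ p)) = col p by rw [hφ2, hφ2, swap_apply_self]))
  set σ : Perm α := hinv.toPerm φ with hσ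
  have hσr : σ ∈ stab row := fun p => hφ1 p
  have hσ2 : σ * σ = 1 := Equiv.ext hinv
  have hσc : ∀ c ∈ stab col, σ * c * σ ∈ stab col := fun c hc p => by
    show col (φ (c (φ p))) = col p
    rw [hφ2, hc, hφ2, swap_apply_self]
  have hσ1 : σ ≠ 1 := fun h => by
    obtain ⟨p, hp⟩ := hj
    have := hφ2 p
    rw [show φ p = p from Equiv.congr_fun h p, mem_block.mp hp, swap_apply_left] at this
    exact hne this
  have hcr : ∀ u, crInd row col (σ * u) = crInd row col u := fun u => by
    let e : stab col ≃ stab col :=
      { toFun := fun c => ⟨σ * c * σ, hσc c c.2⟩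
        invFun := fun c => ⟨σ * c * σ, hσc c c.2⟩
        left_inv := fun c => Subtype.ext (by simp only [← mul_assoc, hσ2, one_mul]; simp [mul_assoc, hσ2])
        right_inv := fun c => Subtype.ext (by simp only [← mul_assoc, hσ2, one_mul]; simp [mul_assoc, hσ2]) }
    unfold crInd
    rw [← Equiv.sum_comp e]
    refine sum_congr rfl fun c _ => ?_
    rw [← Equiv.sum_comp (Equiv.mulLeft (⟨σ, hσr⟩ : stab row))]
    refine sum_congr rfl fun r _ => ?_
    show (if σ * c * σ * (σ * r) = σ * u then (1 : ZMod 2) else 0) = _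
    rw [mul_assoc _ σ (σ * r), ← mul_assoc σ σ, hσ2, one_mul, mul_assoc σ]
    exact if_congr (mul_right_inj σ) rfl rfl
  funext x
  refine sum_involution (fun r _ => (⟨σ, hσr⟩ : stab row) * r) (fun r _ => ?_) (fun r _ _ h' => hσ1 ?_)
    (fun r _ => mem_univ _) fun r _ => Subtype.ext (by simp [← mul_assoc, hσ2])
  · rw [Subgroup.coe_mul, mul_assoc, hcr]
    exact two_zero _
  · exact congrArg Subtype.val (mul_eq_right.mp h')

omit [DecidableEq α] in
theorem stab_num_eq_one {h : Perm α} (hh : h ∈ stab (num (α := α))) : h = 1 :=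
  Equiv.ext fun p => num_injective (hh p)

/-- Turn any labelling into a tableau with the same row group. -/
theorem exists_tableau (f : α → ℕ) :
    ∃ row col : α → ℕ, IsTableau row col ∧ stab row = stab f ∧ wt row = wt f := by
  classical
  let before : ℕ → ℕ → Prop := fun l l' =>
    (block f l').card < (block f l).card ∨ (block f l).card = (block f l').card ∧ l < l'
  set T := univ.image f
  let pos : ℕ → ℕ := fun l => (T.filter fun k => before k l).card
  have hmono : ∀ l l', l ∈ T → before l l' → pos l < pos l' := fun l l' hl hb => by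
    refine card_lt_card ((ssubset_iff_of_subset fun k hk => ?_).mpr ⟨l, mem_filter.mpr ⟨hl, hb⟩, ?_⟩)
    · obtain ⟨h1, h2⟩ := mem_filter.mp hk
      refine mem_filter.mpr ⟨h1, ?_⟩
      simp only [before] at h2 hb ⊢
      omega
    · intro h
      have := (mem_filter.mp h).2
      simp only [before] at this
      omega
  have htot : ∀ l l', l ≠ l' → before l l' ∨ before l' l := fun l l' hne => by
    simp only [before]; omega
  have hinjT : ∀ l ∈ T, ∀ l' ∈ T, pos l = pos l' → l = l' := fun l hl l' hl' he => by
    by_contra hne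
    rcases htot l l' hne with h | h
    · exact absurd he (hmono l l' hl h).ne
    · exact absurd he (hmono l' l hl' h).ne'
  have hlt : ∀ l ∈ T, pos l < T.card := fun l hl => by
    refine card_lt_card ((ssubset_iff_of_subset (filter_subset _ _)).mpr ⟨l, hl, fun h => ?_⟩)
    have := (mem_filter.mp h).2
    simp only [before] at this
    omega
  have himg : T.image pos = range T.card :=
    eq_of_subset_of_card_le (fun k hk => by
      obtain ⟨l, hl, rfl⟩ := mem_image.mp hk
      exact mem_range.mpr (hlt l hl))
      (by rw [card_range, card_image_of_injOn fun l hl l' hl' => hinjT l hl l' hl'])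
  have hfT : ∀ x, f x ∈ T := fun x => mem_image_of_mem f (mem_univ x)
  have hrow : ∀ x y, pos (f x) = pos (f y) ↔ f x = f y := fun x y =>
    ⟨hinjT _ (hfT x) _ (hfT y), congrArg pos⟩
  have hrklt : ∀ x, rk f num x < (block f (f x)).card := fun x =>
    card_lt_card ((ssubset_iff_of_subset (filter_subset _ _)).mpr
      ⟨x, mem_block.mpr rfl, fun h => lt_irrefl _ (mem_filter.mp h).2⟩)
  have hrkinj : ∀ x y, f x = f y → rk f num x = rk f num y → x = y := by
    suffices ∀ x y, f x = f y → num x < num y → rk f num x < rk f num y by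
      intro x y hf he
      rcases lt_trichotomy (num x) (num y) with h | h | h
      · exact absurd he (this x y hf h).ne
      · exact num_injective h
      · exact absurd he (this y x hf.symm h).ne'
    intro x y hf h
    rw [rk, rk, hf]
    refine card_lt_card ((ssubset_iff_of_subset fun z hz => ?_).mpr
      ⟨x, mem_filter.mpr ⟨mem_block.mpr hf, h⟩, fun h' => lt_irrefl _ (mem_filter.mp h').2⟩)
    exact mem_filter.mpr ⟨(mem_filter.mp hz).1, (mem_filter.mp hz).2.trans h⟩
  refine ⟨fun x => pos (f x), rk f num, ⟨fun x y h => ?_, fun x i j hi hj => ?_⟩, ?_, ?_⟩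
  · simp only [Prod.mk.injEq] at h
    exact hrkinj x y ((hrow x y).mp h.1) h.2
  · have hi' : i ∈ T.image pos := by
      rw [himg]
      exact mem_range.mpr (lt_of_le_of_lt hi (hlt _ (hfT x)))
    obtain ⟨l, hl, rfl⟩ := mem_image.mp hi'
    have hsize : (block f (f x)).card ≤ (block f l).card := by
      by_contra hlt'
      exact absurd hi (not_le.mpr (hmono _ _ (hfT x) (Or.inl (not_le.mp hlt'))))
    have himg2 : (block f l).image (rk f num) = range (block f l).card :=
      eq_of_subset_of_card_le (fun k hk => by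
        obtain ⟨z, hz, rfl⟩ := mem_image.mp hk
        exact mem_range.mpr (mem_block.mp hz ▸ hrklt z))
        (by rw [card_range, card_image_of_injOn fun z hz z' hz' he =>
          hrkinj z z' ((mem_block.mp (mem_coe.mp hz)).trans (mem_block.mp (mem_coe.mp hz')).symm) he])
    have hj' : j ∈ (block f l).image (rk f num) := by
      rw [himg2]
      have := hrklt x
      exact mem_range.mpr (by omega)
    obtain ⟨y, hy, rfl⟩ := mem_image.mp hj'
    exact ⟨y, by rw [mem_block.mp hy], rfl⟩
  · ext g
    exact forall_congr' fun x => hrow _ _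
  · rw [wt_eq_sum _ num num_injective, wt_eq_sum f num num_injective]
    refine sum_congr rfl fun x _ => congrArg (2 ^ ·) (congrArg card ?_)
    ext y
    simp only [mem_filter, mem_block, hrow]

/-- Every nonzero translation invariant space contains a nonzero `zfun`. -/
theorem exists_zfun_mem {U : Submodule (ZMod 2) (Perm α → ZMod 2)} (hU : TransInv U) (hne : U ≠ ⊥) :
    ∃ row col : α → ℕ, IsTableau row col ∧ zfun row col ∈ U ∧
      ∀ j j', (block col j).Nonempty → (block col j).card = (block col j').card → j = j' := by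
  classical
  obtain ⟨J, ⟨hJU, hJ, hJne⟩, hmin⟩ := (wellFounded_lt
    (α := Submodule (ZMod 2) (Perm α → ZMod 2))).has_min
      {J | J ≤ U ∧ TransInv J ∧ J ≠ ⊥} ⟨U, le_rfl, hU, hne⟩
  obtain ⟨a₀, ha₀, ha₀ne⟩ := (Submodule.ne_bot_iff J).mp hJne
  let S : Set ℕ := {k | ∃ f, wt f = k ∧ ∃ a ∈ J, ∃ x, lsum f a x ≠ 0}
  have hSne : S.Nonempty := by
    obtain ⟨x, hx⟩ := Function.ne_iff.mp ha₀ne
    refine ⟨_, num, rfl, a₀, ha₀, x, ?_⟩
    rw [lsum, sum_eq_single (1 : stab (num (α := α)))]
    · simpa using hx
    · exact fun h _ hne' => absurd (Subtype.ext (stab_num_eq_one h.2)) hne'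
    · exact fun h => absurd (mem_univ _) h
  have hSb : BddAbove S := ⟨Fintype.card α * 2 ^ Fintype.card α, by
    rintro k ⟨f, rfl, -⟩
    rw [wt_eq_sum f num num_injective]
    exact (sum_le_card_nsmul _ _ _ fun x _ =>
      Nat.pow_le_pow_right (by norm_num) (card_le_univ _)).trans (le_of_eq (by simp))⟩
  obtain ⟨f, hfk, a, haJ, x₁, hx₁⟩ := Nat.sSup_mem hSne hSb
  obtain ⟨row, col, hT, hst, hwt⟩ := exists_tableau f
  have hls : ∀ a x, lsum row a x = lsum f a x := fun a x => by
    unfold lsum
    exact Fintype.sum_equiv (Equiv.subtypeEquivRight fun g => by rw [hst]) _ _ fun _ => rfl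
  have hgood : Good row a := good_of_annihilated fun f' hf' t x => by
    by_contra h
    have : wt f' ≤ sSup S := le_csSup hSb ⟨f', rfl, _, (hJ a haJ t).1, x, h⟩
    omega
  obtain ⟨b, hb, hab⟩ := straighten hT a hgood
  set w : Perm α → ZMod 2 := fun x => lsum row b x with hw
  have hwJ : w ∈ J := by
    have : w = ∑ r : stab row, fun x => a ((r : Perm α) * x) := by
      funext x
      rw [Finset.sum_apply, hw]
      exact (hab x).symm
    rw [this]
    exact J.sum_mem fun r _ => (hJ a haJ _).1
  have hw1 : w x₁ = 1 := eq_one_of_ne_zero (by rw [hw]; simpa only [← hab, hls] using hx₁)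
  have hz0 : zfun row col ≠ 0 := by
    intro hz
    let J' : Submodule (ZMod 2) (Perm α → ZMod 2) :=
      { carrier := {u | u ∈ J ∧ ∀ g x, lsum row (fun y => u (g * y)) x = 0}
        zero_mem' := ⟨J.zero_mem, fun g x => by simp [lsum]⟩
        add_mem' := fun {u v} hu hv => ⟨J.add_mem hu.1 hv.1, fun g x => by
          show lsum row ((fun y => u (g * y)) + fun y => v (g * y)) x = 0
          rw [lsum_add, hu.2, hv.2, add_zero]⟩
        smul_mem' := fun t u hu => ⟨J.smul_mem t hu.1, fun g x => by
          have := hu.2 g x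
          simp only [lsum, Pi.smul_apply, smul_eq_mul] at this ⊢
          rw [← mul_sum, this, mul_zero]⟩ }
    have hJ' : TransInv J' := fun u hu k => ⟨⟨(hJ u hu.1 k).1, fun g x => by
        have := hu.2 (k * g) x
        simp only [mul_assoc] at this
        exact this⟩, ⟨(hJ u hu.1 k).2, fun g x => by
        have := hu.2 g (x * k)
        simp only [lsum, mul_assoc] at this ⊢
        exact this⟩⟩
    have hwJ' : w ∈ J' := ⟨hwJ, fun g x => by
      show lsum row (fun y => lsum row b (g * y)) x = 0
      rw [lsum_translate hT hb, hz, Pi.zero_apply, zero_mul]⟩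
    have hle : J' ≤ J := fun u hu => hu.1
    have hJ'ne : J' ≠ ⊥ := (Submodule.ne_bot_iff J').mpr ⟨w, hwJ', fun h => by
      rw [h, Pi.zero_apply] at hw1; exact zero_ne_one hw1⟩
    have heq : J' = J := by
      by_contra h
      exact hmin J' ⟨hle.trans hJU, hJ', hJ'ne⟩ (lt_of_le_of_ne hle h)
    have haJ' : a ∈ J' := heq ▸ haJ
    have := haJ'.2 1 x₁
    simp only [one_mul] at this
    rw [hls] at this
    exact hx₁ this
  refine ⟨row, col, hT, hJU ?_, fun j j' hj heq => ?_⟩
  · have : zfun row col = ∑ r : stab row, fun x => w (x * ((r : Perm α) * x₁)) := by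
      funext x
      rw [Finset.sum_apply]
      simp only [hw, lsum]
      rw [sum_comm]
      refine sum_congr rfl fun r _ => ?_
      have h := sum_translate hT hb ((r : Perm α) * x) x₁
      rw [show lsum row b x₁ = 1 from hw1, mul_one] at h
      rw [← h]
      exact sum_congr rfl fun r' _ => by simp only [mul_assoc]
    rw [this]
    exact J.sum_mem fun r _ => (hJ w hwJ _).2
  · by_contra hne'
    exact hz0 (zfun_eq_zero hT hne' hj heq)

end Vale.Agent.P197.Saxl
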