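import Vale.Agent.P197.Saxl.Parity

/-!
# P197: the involution criterion for Saxl's conjecture

In the parity criterion take for the second translate the transposed inverse of the first one.
Inverting the triple `(c, r, c')` is then a symmetry, and only the triples with `c' = c⁻¹` and
`r² = 1` remain: pairs of an involution of the cells and a column permutation of `μ`.
-/

namespace Vale.Agent.P197.Saxl

open Finset Equiv

variable {m : ℕ}

/-- `x ↦ (rlab (π x), clab x)` is a bijection onto the cells of the staircase. -/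
def IsCellMap (rlab clab : Stair m → ℕ) (π : Perm (Stair m)) : Prop :=
  (∀ x, rlab (π x) + clab x < m) ∧ Function.Injective fun x => (rlab (π x), clab x)

instance (rlab clab : Stair m → ℕ) : DecidablePred (IsCellMap rlab clab) := fun π =>
  inferInstanceAs (Decidable ((∀ x, rlab (π x) + clab x < m) ∧
    Function.Injective fun x => (rlab (π x), clab x)))

/-- For every strict partition `μ` of the staircase size, given by a tableau with rows `rowμ` and
columns `colμ` whose row lengths are pairwise distinct, there are labellings `rlab`, `clab` of the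
cells such that the following pairs are odd in number: an involution `π` with `IsCellMap`, and a
`c` in the column group of `μ`, such that `π` preserves the rows of `rowμ ∘ c`. -/
def InvolutionWitness : Prop :=
  ∀ (m : ℕ) (rowμ colμ : Stair m → ℕ), IsTableau rowμ colμ →
    (∀ i i', (block rowμ i).Nonempty → (block rowμ i).card = (block rowμ i').card → i = i') →
    ∃ rlab clab : Stair m → ℕ,
      Odd ((univ : Finset (Perm (Stair m) × stab colμ)).filter fun q =>
        q.1 * q.1 = 1 ∧ IsCellMap rlab clab q.1 ∧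
          ∀ x, rowμ ((q.2 : Perm (Stair m)) (q.1 x)) = rowμ ((q.2 : Perm (Stair m)) x)).card

/-- The cell given by a pair of labels. -/
def cellOf (rlab clab : Stair m → ℕ) (π : Perm (Stair m))
    (h : ∀ x, rlab (π x) + clab x < m) (x : Stair m) : Stair m :=
  ⟨(⟨rlab (π x), by have := h x; omega⟩, ⟨clab x, by have := h x; omega⟩), h x⟩

theorem exists_cellPerm {rlab clab : Stair m → ℕ} {π : Perm (Stair m)}
    (h : IsCellMap rlab clab π) :
    ∃ φ : Perm (Stair m),
      ∀ x, (stairRow m (φ x) : ℕ) = rlab (π x) ∧ (stairCol m (φ x) : ℕ) = clab x := by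
  have hinj : Function.Injective (cellOf rlab clab π h.1) := fun x y e => h.2 (by
    have e1 := congrArg (fun z : Stair m => (stairRow m z : ℕ)) e
    have e2 := congrArg (fun z : Stair m => (stairCol m z : ℕ)) e
    exact Prod.ext e1 e2)
  exact ⟨Equiv.ofBijective _ ((Fintype.bijective_iff_injective_and_card _).mpr ⟨hinj, rfl⟩),
    fun x => ⟨rfl, rfl⟩⟩

theorem mem_rcSet_iff (g : Perm (Stair m)) :
    g ∈ rcSet m ↔
      IsCellMap (fun x => (stairRow m x : ℕ)) (fun x => (stairCol m x : ℕ)) g := by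
  constructor
  · intro hg
    obtain ⟨⟨r, c⟩, -, rfl⟩ := mem_image.mp hg
    have hr : ∀ x, (stairRow m (((r : Perm (Stair m)) * c) x) : ℕ)
        = stairRow m ((c : Perm (Stair m)) x) := fun x => by
      rw [Perm.mul_apply, r.2]
    have hc : ∀ x, (stairCol m x : ℕ) = stairCol m ((c : Perm (Stair m)) x) := fun x => by
      rw [c.2]
    refine ⟨fun x => ?_, fun x y e => ?_⟩
    · show (stairRow m (((r : Perm (Stair m)) * c) x) : ℕ) + stairCol m x < m
      rw [hr, hc]
      exact ((c : Perm (Stair m)) x).2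
    · simp only [Prod.mk.injEq, hr] at e
      refine (c : Perm (Stair m)).injective (Subtype.ext (Prod.ext (Fin.ext e.1) (Fin.ext ?_)))
      show (stairCol m ((c : Perm (Stair m)) x) : ℕ) = stairCol m ((c : Perm (Stair m)) y)
      rw [← hc, ← hc]
      exact e.2
  · intro h
    obtain ⟨φ, hφ⟩ := exists_cellPerm h
    have hc : φ ∈ stab (stairCol m) := fun x => Fin.ext (hφ x).2
    have hr : g * φ⁻¹ ∈ stab (stairRow m) := fun x => Fin.ext (by
      have e := (hφ (φ⁻¹ x)).1
      rw [show φ (φ⁻¹ x) = x from φ.apply_symm_apply x] at e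
      exact e.symm)
    exact mem_image.mpr ⟨(⟨_, hr⟩, ⟨φ, hc⟩), mem_univ _, by simp⟩

/-- Transposition of the staircase. -/
def transpose (m : ℕ) : Perm (Stair m) where
  toFun x := ⟨(x.1.2, x.1.1), show (x.1.2 : ℕ) + x.1.1 < m by have := x.2; omega⟩
  invFun x := ⟨(x.1.2, x.1.1), show (x.1.2 : ℕ) + x.1.1 < m by have := x.2; omega⟩
  left_inv _ := rfl
  right_inv _ := rfl

theorem transpose_mul_self (m : ℕ) : transpose m * transpose m = 1 := rfl

theorem transpose_conj_mem {h : Perm (Stair m)} (hh : h⁻¹ ∈ rcSet m) :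
    transpose m * h * transpose m ∈ rcSet m := by
  obtain ⟨⟨r, c⟩, -, e⟩ := mem_image.mp hh
  have hr : transpose m * (c : Perm (Stair m))⁻¹ * transpose m ∈ stab (stairRow m) := fun x =>
    (inv_mem c.2 : (c : Perm (Stair m))⁻¹ ∈ stab (stairCol m)) (transpose m x)
  have hc : transpose m * (r : Perm (Stair m))⁻¹ * transpose m ∈ stab (stairCol m) := fun x =>
    (inv_mem r.2 : (r : Perm (Stair m))⁻¹ ∈ stab (stairRow m)) (transpose m x)
  refine mem_image.mpr ⟨(⟨_, hr⟩, ⟨_, hc⟩), mem_univ _, ?_⟩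
  show transpose m * (c : Perm (Stair m))⁻¹ * transpose m
    * (transpose m * (r : Perm (Stair m))⁻¹ * transpose m) = _
  rw [← inv_inv h, ← e, mul_inv_rev]
  simp only [mul_assoc]
  rw [← mul_assoc (transpose m) (transpose m) ((r : Perm (Stair m))⁻¹ * transpose m),
    transpose_mul_self, one_mul]

theorem transpose_conj_mem_iff (h : Perm (Stair m)) :
    transpose m * h * transpose m ∈ rcSet m ↔ h⁻¹ ∈ rcSet m := by
  refine ⟨fun e => ?_, transpose_conj_mem⟩
  have ht : (transpose m)⁻¹ = transpose m := inv_eq_of_mul_eq_one_right (transpose_mul_self m)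
  have e' := transpose_conj_mem (h := transpose m * h⁻¹ * transpose m) (by
    rw [mul_inv_rev, mul_inv_rev, inv_inv, ht, ← mul_assoc]
    exact e)
  rwa [mul_assoc (transpose m) h⁻¹, ← mul_assoc (transpose m) (transpose m) _, transpose_mul_self,
    one_mul, mul_assoc, transpose_mul_self, mul_one] at e'

section count

variable {C R G : Type} [Group C] [Group R] [Fintype C] [Fintype R] [DecidableEq C] [DecidableEq R]

/-- Only the fixed points of inversion of triples count mod 2. -/
theorem card_filter_mod_two (P : C × R × C → Prop) [DecidablePred P]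
    (hP : ∀ q : C × R × C, P q → P (q.2.2⁻¹, q.2.1⁻¹, q.1⁻¹)) :
    (((univ : Finset (C × R × C)).filter P).card : ZMod 2)
      = (((univ : Finset (C × R × C)).filter fun q =>
          P q ∧ q.2.2 = q.1⁻¹ ∧ q.2.1⁻¹ = q.2.1).card : ZMod 2) := by
  rw [← sum_boole, ← sum_boole, ← sub_eq_zero, ← sum_sub_distrib]
  refine sum_involution (fun q _ => (q.2.2⁻¹, q.2.1⁻¹, q.1⁻¹)) ?_ ?_ (fun q _ => mem_univ _) ?_
  · rintro ⟨c, r, c'⟩ -
    have e1 : P (c'⁻¹, r⁻¹, c⁻¹) ↔ P (c, r, c') :=
      ⟨fun h => by simpa using hP _ h, fun h => hP (c, r, c') h⟩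
    have e2 : (c⁻¹ = c'⁻¹⁻¹ ∧ (r⁻¹)⁻¹ = r⁻¹) ↔ (c' = c⁻¹ ∧ r⁻¹ = r) := by
      simp only [inv_inv, eq_comm]
    simp only [e1, e2]
    exact CharTwo.add_self_eq_zero _
  · rintro ⟨c, r, c'⟩ - hne e
    simp only [Prod.mk.injEq] at e
    exact hne (by simp [e.2.1, e.2.2])
  · rintro ⟨c, r, c'⟩ -
    simp

end count

theorem exists_translate_aux {rlab clab : Stair m → ℕ} {π₀ : Perm (Stair m)} (hπ₀ : π₀ * π₀ = 1)
    (hcell : IsCellMap rlab clab π₀) :
    ∃ φ : Perm (Stair m), ∀ g,
      φ * π₀ * g * φ⁻¹ ∈ rcSet m ↔ IsCellMap rlab clab g := by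
  obtain ⟨φ, hφ⟩ := exists_cellPerm hcell
  -- the translate with labels `rlab`, `clab`
  have hkey : ∀ g : Perm (Stair m),
      φ * π₀ * g * φ⁻¹ ∈ rcSet m ↔ IsCellMap rlab clab g := fun g => by
    have e1 : ∀ y, (stairRow m ((φ * π₀ * g * φ⁻¹) y) : ℕ) = rlab (g (φ⁻¹ y)) := fun y => by
      show (stairRow m (φ (π₀ (g (φ⁻¹ y)))) : ℕ) = _
      rw [(hφ _).1, ← Perm.mul_apply, hπ₀]
      rfl
    have e2 : ∀ y, (stairCol m y : ℕ) = clab (φ⁻¹ y) := fun y => by
      rw [← (hφ (φ⁻¹ y)).2, show φ (φ⁻¹ y) = y from φ.apply_symm_apply y]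
    have hφ' : ∀ x, φ⁻¹ (φ x) = x := φ.symm_apply_apply
    rw [mem_rcSet_iff]
    constructor
    · intro hg
      refine ⟨fun x => ?_, fun x y e => φ.injective (hg.2 ?_)⟩
      · have := hg.1 (φ x)
        simp only [e1, e2, hφ'] at this
        exact this
      · simp only [e1, e2, hφ']
        exact e
    · intro hg
      refine ⟨fun x => ?_, fun x y e => φ⁻¹.injective (hg.2 ?_)⟩
      · simp only [e1, e2]
        exact hg.1 _
      · simp only [e1, e2] at e
        exact e
  exact ⟨φ, hkey⟩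

theorem exists_translate {rlab clab : Stair m → ℕ} {π₀ : Perm (Stair m)} (hπ₀ : π₀ * π₀ = 1)
    (hcell : IsCellMap rlab clab π₀) :
    ∃ a b : Perm (Stair m), ∀ g, a * g * b ∈ rcSet m ↔ IsCellMap rlab clab g := by
  obtain ⟨φ, hφ⟩ := exists_translate_aux hπ₀ hcell
  exact ⟨φ * π₀, φ⁻¹, hφ⟩

theorem parity_of_involution (h : InvolutionWitness) : ParityWitness := by
  intro m rowμ colμ hT hstrict
  obtain ⟨rlab, clab, hodd⟩ := h m rowμ colμ hT hstrict
  obtain ⟨⟨π₀, c₀⟩, h₀⟩ := card_pos.mp hodd.pos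
  obtain ⟨hπ₀, hcell, -⟩ := (mem_filter.mp h₀).2
  obtain ⟨φ, hkey⟩ := exists_translate_aux hπ₀ hcell
  refine ⟨φ * π₀, φ⁻¹, transpose m * φ, (φ * π₀)⁻¹ * transpose m, ?_⟩
  have hsecond : ∀ g : Perm (Stair m),
      transpose m * φ * g * ((φ * π₀)⁻¹ * transpose m) ∈ rcSet m ↔ IsCellMap rlab clab g⁻¹ :=
    fun g => by
      rw [← hkey g⁻¹, show transpose m * φ * g * ((φ * π₀)⁻¹ * transpose m)
        = transpose m * (φ * g * (φ * π₀)⁻¹) * transpose m by simp only [mul_assoc],
        transpose_conj_mem_iff,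
        show (φ * g * (φ * π₀)⁻¹)⁻¹ = φ * π₀ * g⁻¹ * φ⁻¹ by
          simp only [mul_inv_rev, inv_inv, mul_assoc]]
  simp only [hkey, hsecond]
  refine ZMod.natCast_eq_one_iff_odd.mp ?_
  rw [card_filter_mod_two]
  · refine (congrArg Nat.cast ?_).trans hodd.natCast_zmod_two
    refine card_bij' (fun q _ => ((q.1 : Perm (Stair m)) * q.2.1 * q.2.2, q.1⁻¹))
      (fun q hq => (q.2⁻¹, ⟨(q.2 : Perm (Stair m)) * q.1 * (q.2 : Perm (Stair m))⁻¹, fun x => by
        have e := (mem_filter.mp hq).2.2.2 ((q.2 : Perm (Stair m))⁻¹ x)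
        simpa using e⟩, q.2)) ?_ ?_ ?_ ?_
    · rintro ⟨c, r, c'⟩ hq
      obtain ⟨⟨hg, -⟩, hc', hr⟩ := (mem_filter.mp hq).2
      change c' = c⁻¹ at hc'
      change r⁻¹ = r at hr
      subst hc'
      refine mem_filter.mpr ⟨mem_univ _, ?_, hg, fun x => ?_⟩
      · have hrr : (r : Perm (Stair m)) * r = 1 := by
          have e : ((r⁻¹ : stab rowμ) : Perm (Stair m)) = r := congrArg Subtype.val hr
          rw [Subgroup.coe_inv] at e
          nth_rw 1 [← e]
          exact inv_mul_cancel _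
        show (c : Perm (Stair m)) * r * ((c⁻¹ : stab colμ) : Perm (Stair m))
          * ((c : Perm (Stair m)) * r * ((c⁻¹ : stab colμ) : Perm (Stair m))) = 1
        rw [Subgroup.coe_inv]
        simp [mul_assoc, ← mul_assoc (r : Perm (Stair m)) r, hrr]
      · simpa using r.2 _
    · rintro ⟨π, c⟩ hq
      obtain ⟨hπ, hg, hrow⟩ := (mem_filter.mp hq).2
      have hinv : π⁻¹ = π := inv_eq_of_mul_eq_one_right hπ
      refine mem_filter.mpr ⟨mem_univ _, ⟨?_, ?_⟩, ?_, ?_⟩
      · simpa [mul_assoc] using hg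
      · simpa [mul_assoc, hinv] using hg
      · simp
      · exact Subtype.ext (by simp [mul_assoc, hinv])
    · rintro ⟨c, r, c'⟩ hq
      obtain ⟨-, hc', -⟩ := (mem_filter.mp hq).2
      change c' = c⁻¹ at hc'
      subst hc'
      refine Prod.ext (by simp) (Prod.ext (Subtype.ext ?_) rfl)
      simp [mul_assoc]
    · rintro ⟨π, c⟩ -
      refine Prod.ext ?_ (by simp)
      simp [mul_assoc]
  · rintro ⟨c, r, c'⟩ ⟨h1, h2⟩
    simp only [Subgroup.coe_inv]
    constructor
    · simpa [mul_assoc] using h2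
    · simpa [mul_assoc] using h1

/-- Saxl's conjecture follows from the involution witnesses. -/
theorem saxl_of_involution (h : InvolutionWitness) : SaxlStatement :=
  saxl_of_parity (parity_of_involution h)


end Vale.Agent.P197.Saxl
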