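import Vale.Agent.P197.Saxl.Defs

/-!
# P197: the linear independence lemma implies Saxl's conjecture

For a diagram let `f g` be the coefficient of the diagram's tabloid in `g e`; it is `±1` on the
products `r c` and `0` elsewhere.  If some functional on the operators vanishes at all `r c ≠ 1`
but not at `1`, its product with `f` is a coefficient function of the tensor square supported
exactly at `1`, so the operators of all group elements on the tensor square are independent, and
every representation maps to it nontrivially.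
-/

namespace Vale.Agent.P197.Saxl

open scoped TensorProduct

variable {α ι κ : Type} [Fintype α] [DecidableEq α] [DecidableEq ι] [DecidableEq κ]
  {row : α → ι} {col : α → κ}

theorem polytabloid_mem : polytabloid row col ∈ specht row col :=
  Submodule.subset_span ⟨1, by simp⟩

/-- The coefficient of the diagram's tabloid in a translate of the polytabloid. -/
noncomputable def tabCoef (A : Module.End ℂ (specht row col)) : ℂ :=
  (A ⟨_, polytabloid_mem⟩ : (α → ι) → ℂ) row

theorem tabCoef_rep (g : Equiv.Perm α) :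
    tabCoef (spechtRep row col g) = ∑ c : stab col,
      if g * (c : Equiv.Perm α) ∈ stab row then ((Equiv.Perm.sign (c : Equiv.Perm α) : ℤ) : ℂ)
      else 0 := by
  show tabRep α ι g (polytabloid row col) row = _
  simp only [polytabloid, map_sum, map_smul, Finset.sum_apply, Pi.smul_apply]
  refine Finset.sum_congr rfl fun c _ => ?_
  show _ * tabloid row ((row ∘ g) ∘ (c : Equiv.Perm α)) = _
  have hiff : (row ∘ g) ∘ (c : Equiv.Perm α) = row ↔ g * (c : Equiv.Perm α) ∈ stab row := by
    rw [funext_iff]; rfl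
  simp only [tabloid, hiff]
  split_ifs <;> simp

omit [Fintype α] [DecidableEq α] [DecidableEq ι] [DecidableEq κ] in
theorem stab_inter_eq_one (hinj : Function.Injective fun x => (row x, col x)) {g : Equiv.Perm α}
    (hr : g ∈ stab row) (hc : g ∈ stab col) : g = 1 :=
  Equiv.ext fun x => hinj (Prod.ext (hr x) (hc x))

theorem tabCoef_one (hinj : Function.Injective fun x => (row x, col x)) :
    tabCoef (spechtRep row col 1) = 1 := by
  rw [tabCoef_rep, Finset.sum_eq_single (1 : stab col)]
  · simp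
  · intro c _ hc
    rw [if_neg]
    intro h
    rw [one_mul] at h
    exact hc (Subtype.ext (stab_inter_eq_one hinj h c.2))
  · simp

theorem exists_of_tabCoef_ne {g : Equiv.Perm α} (h : tabCoef (spechtRep row col g) ≠ 0) :
    ∃ p : stab row × stab col, g = (p.1 : Equiv.Perm α) * (p.2 : Equiv.Perm α) := by
  rw [tabCoef_rep] at h
  obtain ⟨c, -, hc⟩ := Finset.exists_ne_zero_of_sum_ne_zero h
  have hm : g * (c : Equiv.Perm α) ∈ stab row := by
    by_contra hn
    exact hc (if_neg hn)
  exact ⟨(⟨_, hm⟩, c⁻¹), by simp⟩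

/-- The needed consequence of independence: `1` is outside the span of the other `r c`. -/
def OneApart (row : α → ι) (col : α → κ) : Prop :=
  (1 : Module.End ℂ (specht row col)) ∉ Submodule.span ℂ
    {A | ∃ p : stab row × stab col, (p.1 : Equiv.Perm α) * (p.2 : Equiv.Perm α) ≠ 1 ∧
      spechtRep row col ((p.1 : Equiv.Perm α) * (p.2 : Equiv.Perm α)) = A}

/-- A functional supported off the identity and a functional that kills the rest give independent
operators on the tensor square. -/
theorem tprod_indep {G V : Type} [Group G] [Fintype G] [AddCommGroup V] [Module ℂ V]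
    [FiniteDimensional ℂ V] (ρ : Representation ℂ G V) (f : Module.End ℂ V →ₗ[ℂ] ℂ) (f1 : f 1 ≠ 0)
    {s : Set (Module.End ℂ V)} (hs : (1 : Module.End ℂ V) ∉ Submodule.span ℂ s)
    (hsupp : ∀ g, g ≠ 1 → f (ρ g) ≠ 0 → ρ g ∈ s) :
    LinearIndependent ℂ fun g => ρ.tprod ρ g := by
  obtain ⟨Λ, hΛ1, hΛ⟩ := Submodule.exists_le_ker_of_notMem hs
  let P : Module.End ℂ V ⊗[ℂ] Module.End ℂ V →ₗ[ℂ] ℂ :=
    TensorProduct.lift (((LinearMap.mul ℂ ℂ).comp f).compl₂ Λ)
  let Ω := P.comp (homTensorHomEquiv ℂ V V V V).symm.toLinearMap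
  have hΩ : ∀ g, Ω (ρ.tprod ρ g) = f (ρ g) * Λ (ρ g) := fun g => by
    have e : (homTensorHomEquiv ℂ V V V V).symm (ρ.tprod ρ g) = ρ g ⊗ₜ ρ g := by
      rw [LinearEquiv.symm_apply_eq, homTensorHomEquiv_apply, TensorProduct.homTensorHomMap_apply]
      rfl
    show P ((homTensorHomEquiv ℂ V V V V).symm (ρ.tprod ρ g)) = _
    rw [e]
    rfl
  have h0 : ∀ g, g ≠ 1 → Ω (ρ.tprod ρ g) = 0 := fun g hg => by
    rw [hΩ]
    by_cases hz : f (ρ g) = 0
    · rw [hz, zero_mul]
    · rw [show Λ (ρ g) = 0 from hΛ (Submodule.subset_span (hsupp g hg hz)), mul_zero]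
  have h1 : Ω (ρ.tprod ρ 1) ≠ 0 := by
    rw [hΩ, map_one]
    exact mul_ne_zero f1 hΛ1
  refine Fintype.linearIndependent_iff.mpr fun a ha k => ?_
  have h' := congrArg (fun A => Ω (ρ.tprod ρ k⁻¹ * A)) ha
  simp only [Finset.mul_sum, mul_smul_comm, ← map_mul, mul_zero, map_zero, map_sum, map_smul,
    smul_eq_mul] at h'
  rw [Finset.sum_eq_single k (fun g _ hg => by
      rw [h0 _ (fun e => hg ((inv_mul_eq_one.mp e).symm)), mul_zero])
    (fun hk => absurd (Finset.mem_univ k) hk), inv_mul_cancel] at h'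
  exact (mul_eq_zero.mp h').resolve_right h1

/-- `tabCoef` as a functional. -/
noncomputable def tabFun (row : α → ι) (col : α → κ) :
    Module.End ℂ (specht row col) →ₗ[ℂ] ℂ where
  toFun := tabCoef
  map_add' _ _ := rfl
  map_smul' _ _ := rfl

/-- Independent operators meet every representation. -/
theorem exists_intertwiner {G V W : Type} [Group G] [Fintype G] [AddCommGroup V] [Module ℂ V]
    [AddCommGroup W] [Module ℂ W] [Nontrivial W] (ρ : Representation ℂ G V)
    (τ : Representation ℂ G W) (h : LinearIndependent ℂ fun g => ρ g) :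
    ∃ T : W →ₗ[ℂ] V, T ≠ 0 ∧ ∀ g, T ∘ₗ τ g = ρ g ∘ₗ T := by
  classical
  have havg : ∀ A : W →ₗ[ℂ] V, ∀ g,
      (∑ k, ρ k ∘ₗ A ∘ₗ τ k⁻¹) ∘ₗ τ g = ρ g ∘ₗ ∑ k, ρ k ∘ₗ A ∘ₗ τ k⁻¹ := fun A g => by
    ext w
    simp only [LinearMap.comp_apply, LinearMap.coe_sum, Finset.sum_apply, map_sum]
    refine (Fintype.sum_equiv (Equiv.mulLeft g) _ _ fun k => ?_).symm
    simp only [Equiv.coe_mulLeft, map_mul, mul_inv_rev, Module.End.mul_apply]
    congr 2
    rw [← Module.End.mul_apply (τ k⁻¹), ← map_mul, ← Module.End.mul_apply, ← map_mul]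
    simp
  by_contra hno
  obtain ⟨w, hw⟩ := exists_ne (0 : W)
  obtain ⟨φ, hφ⟩ : ∃ φ : W →ₗ[ℂ] ℂ, φ w ≠ 0 := by
    by_contra hall
    exact hw ((Module.forall_dual_apply_eq_zero_iff ℂ w).mp fun φ => by
      by_contra hne
      exact hall ⟨φ, hne⟩)
  have hzero : ∀ v, (∑ k, φ (τ k⁻¹ w) • ρ k) v = 0 := fun v => by
    have hT : (∑ k, ρ k ∘ₗ φ.smulRight v ∘ₗ τ k⁻¹) = 0 := by
      by_contra hne
      exact hno ⟨_, hne, havg _⟩
    have h' := LinearMap.congr_fun hT w
    simp only [LinearMap.coe_sum, Finset.sum_apply, LinearMap.comp_apply,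
      LinearMap.smulRight_apply, map_smul, LinearMap.zero_apply] at h'
    simpa [LinearMap.coe_sum, Finset.sum_apply] using h'
  have := Fintype.linearIndependent_iff.mp h _ (LinearMap.ext hzero) 1
  rw [inv_one, map_one] at this
  exact hφ this

theorem stair_injective (m : ℕ) :
    Function.Injective fun x => (stairRow m x, stairCol m x) := fun _ _ h => Subtype.ext h

theorem exists_tprod_map {G V W : Type} [Group G] [Fintype G] [AddCommGroup V] [Module ℂ V]
    [FiniteDimensional ℂ V] [AddCommGroup W] [Module ℂ W] [Nontrivial W]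
    (ρ : Representation ℂ G V) (f : Module.End ℂ V →ₗ[ℂ] ℂ) (f1 : f 1 ≠ 0)
    {s : Set (Module.End ℂ V)} (hs : (1 : Module.End ℂ V) ∉ Submodule.span ℂ s)
    (hsupp : ∀ g, g ≠ 1 → f (ρ g) ≠ 0 → ρ g ∈ s) (τ : Representation ℂ G W) :
    ∃ T : W →ₗ[ℂ] V ⊗[ℂ] V, T ≠ 0 ∧ ∀ g, T ∘ₗ τ g = (ρ.tprod ρ) g ∘ₗ T :=
  exists_intertwiner (ρ.tprod ρ) τ (tprod_indep ρ f f1 hs hsupp)

theorem exists_map_of_oneApart [Fintype ι] (hinj : Function.Injective fun x => (row x, col x))
    (h : OneApart row col) {W : Type} [AddCommGroup W] [Module ℂ W] [Nontrivial W]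
    (τ : Representation ℂ (Equiv.Perm α) W) :
    ∃ T : W →ₗ[ℂ] (specht row col ⊗[ℂ] specht row col),
      T ≠ 0 ∧ ∀ g, T ∘ₗ τ g = ((spechtRep row col).tprod (spechtRep row col)) g ∘ₗ T :=
  exists_tprod_map (spechtRep row col) (tabFun row col)
    (by rw [← map_one (spechtRep row col)]; exact (tabCoef_one hinj).trans_ne one_ne_zero) h
    (fun g hg hne => by
      obtain ⟨p, rfl⟩ := exists_of_tabCoef_ne hne
      exact ⟨p, hg, rfl⟩) τ

theorem saxl_of_oneApart (h : ∀ m, OneApart (stairRow m) (stairCol m)) : SaxlStatement := by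
  intro m W _ _ _ τ
  exact exists_map_of_oneApart (row := stairRow m) (col := stairCol m) (stair_injective m) (h m) τ

theorem oneApart_of_indep (h : StaircaseIndep) (m : ℕ) :
    OneApart (stairRow m) (stairCol m) := by
  have h1 : stairRep m (((1, 1) : stab (stairRow m) × stab (stairCol m)).1 *
      ((1, 1) : stab (stairRow m) × stab (stairCol m)).2 : Equiv.Perm (Stair m)) = 1 := by simp
  intro hmem
  refine (h m).notMem_span_image (s := {p : stab (stairRow m) × stab (stairCol m) | p ≠ (1, 1)})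
    (x := (1, 1)) (fun hp => hp rfl) ?_
  rw [h1]
  refine Submodule.span_mono ?_ hmem
  rintro A ⟨p, hp, rfl⟩
  refine ⟨p, fun e => hp ?_, rfl⟩
  rw [e]
  simp

/-- Saxl's conjecture follows from the linear independence lemma. -/
theorem saxl_of_indep (h : StaircaseIndep) : SaxlStatement :=
  saxl_of_oneApart (oneApart_of_indep h)

end Vale.Agent.P197.Saxl
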