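import Vale.Agent.P197.Saxl.Ideal
import Vale.Agent.P197.Saxl.Reduce

/-!
# P197: the parity criterion for Saxl's conjecture
-/

namespace Vale.Agent.P197.Saxl

open Finset Equiv
open scoped TensorProduct

/-- The row and column products of the staircase. -/
def rcSet (m : ℕ) : Finset (Perm (Stair m)) :=
  (univ : Finset (stab (stairRow m) × stab (stairCol m))).image fun p => (p.1 : Perm _) * (p.2 : Perm _)

/-- For every strict partition `μ` of the staircase size, given by a tableau with rows `rowμ` and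
columns `colμ` whose row lengths are pairwise distinct, some two translates of the products `R C`
of the staircase contain `c r c'` (with `c, c'` in the column group of `μ` and `r` in its row
group) an odd number of times in total. -/
def ParityWitness : Prop :=
  ∀ (m : ℕ) (rowμ colμ : Stair m → ℕ), IsTableau rowμ colμ →
    (∀ i i', (block rowμ i).Nonempty → (block rowμ i).card = (block rowμ i').card → i = i') →
    ∃ a b a₂ b₂ : Perm (Stair m),
      Odd ((univ : Finset (stab colμ × stab rowμ × stab colμ)).filter fun q =>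
        a * ((q.1 : Perm (Stair m)) * q.2.1 * q.2.2) * b ∈ rcSet m ∧
          a₂ * ((q.1 : Perm (Stair m)) * q.2.1 * q.2.2) * b₂ ∈ rcSet m).card

section general

variable {α : Type} [Fintype α] [DecidableEq α] {row col : α → ℕ}

theorem zfun_eq_triples (x : Perm α) : zfun row col x
    = ∑ q : stab row × stab col × stab row,
        if (q.1 : Perm α) * q.2.1 * q.2.2 = x then (1 : ZMod 2) else 0 := by
  rw [zfun]
  simp only [crInd]
  rw [Fintype.sum_prod_type]
  refine Fintype.sum_equiv (Equiv.inv (stab row)) _ _ fun r => ?_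
  rw [Fintype.sum_prod_type]
  refine sum_congr rfl fun c _ => sum_congr rfl fun r' _ => if_congr ?_ rfl rfl
  show _ ↔ ((r⁻¹ : stab row) : Perm α) * c * r' = x
  rw [Subgroup.coe_inv, mul_assoc, inv_mul_eq_iff_eq_mul]

theorem sum_zfun_mul (P : Perm α → Prop) [DecidablePred P] :
    ∑ x, zfun row col x * (if P x then 1 else 0)
      = (((univ : Finset (stab row × stab col × stab row)).filter fun q =>
          P ((q.1 : Perm α) * q.2.1 * q.2.2)).card : ZMod 2) := by
  simp only [zfun_eq_triples, sum_mul]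
  rw [sum_comm, ← sum_boole]
  refine sum_congr rfl fun q _ => ?_
  rw [sum_eq_single ((q.1 : Perm α) * q.2.1 * q.2.2)]
  · simp
  · exact fun x _ hne => by rw [if_neg hne.symm, zero_mul]
  · exact fun h => absurd (mem_univ _) h

end general

variable {m : ℕ}

/-- The products of two translates of the indicator of `R C`, mod 2. -/
def pairFun (q : (Perm (Stair m) × Perm (Stair m)) × Perm (Stair m) × Perm (Stair m))
    (g : Perm (Stair m)) : ZMod 2 :=
  if q.1.1 * g * q.1.2 ∈ rcSet m ∧ q.2.1 * g * q.2.2 ∈ rcSet m then 1 else 0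

/-- The functions orthogonal to all `pairFun`. -/
def pairOrth (m : ℕ) : Submodule (ZMod 2) (Perm (Stair m) → ZMod 2) where
  carrier := {u | ∀ q, ∑ g, u g * pairFun q g = 0}
  zero_mem' := fun q => by simp
  add_mem' := fun {u v} hu hv q => by simp [add_mul, sum_add_distrib, hu q, hv q]
  smul_mem' := fun t u hu q => by simp [mul_assoc, ← mul_sum, hu q]

theorem pairOrth_transInv (m : ℕ) : TransInv (pairOrth m) := by
  intro u hu k
  constructor <;> intro q
  · rw [← hu ((q.1.1 * k⁻¹, q.1.2), (q.2.1 * k⁻¹, q.2.2)), ← Equiv.sum_comp (Equiv.mulLeft k⁻¹)]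
    exact sum_congr rfl fun g _ => by simp [pairFun, ← mul_assoc]
  · rw [← hu ((q.1.1, k⁻¹ * q.1.2), (q.2.1, k⁻¹ * q.2.2)), ← Equiv.sum_comp (Equiv.mulRight k⁻¹)]
    exact sum_congr rfl fun g _ => by simp [pairFun, mul_assoc]

theorem pairOrth_eq_bot (h : ParityWitness) (m : ℕ) : pairOrth m = ⊥ := by
  by_contra hne
  obtain ⟨row, col, hT, hz, hstrict⟩ := exists_zfun_mem (pairOrth_transInv m) hne
  obtain ⟨a, b, a₂, b₂, hodd⟩ := h m col row hT.swap hstrict
  have h0 : ∑ g, zfun row col g * pairFun ((a, b), (a₂, b₂)) g = 0 := hz _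
  rw [show (∑ g, zfun row col g * pairFun ((a, b), (a₂, b₂)) g) = _ from
    sum_zfun_mul (row := row) (col := col)
      (fun g => a * g * b ∈ rcSet m ∧ a₂ * g * b₂ ∈ rcSet m),
    hodd.natCast_zmod_two] at h0
  exact one_ne_zero h0

theorem delta_mem_span (h : ParityWitness) (m : ℕ) :
    (Pi.single 1 1 : Perm (Stair m) → ZMod 2)
      ∈ Submodule.span (ZMod 2) (Set.range (pairFun (m := m))) := by
  classical
  by_contra hn
  obtain ⟨φ, hφ1, hφ⟩ := Submodule.exists_le_ker_of_notMem hn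
  have hexp : ∀ u : Perm (Stair m) → ZMod 2, φ u = ∑ g, φ (Pi.single g 1) * u g := fun u => by
    conv_lhs => rw [pi_eq_sum_univ' u]
    rw [map_sum]
    exact sum_congr rfl fun g _ => by rw [map_smul, smul_eq_mul, mul_comm]
  have hmem : (fun g => φ (Pi.single g 1)) ∈ pairOrth m := fun q => by
    rw [← hexp]
    exact hφ (Submodule.subset_span ⟨q, rfl⟩)
  rw [pairOrth_eq_bot h, Submodule.mem_bot] at hmem
  exact hφ1 (congrFun hmem 1)

/-- The coefficient of the staircase tabloid as an integer. -/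
def tabInt (m : ℕ) (g : Perm (Stair m)) : ℤ :=
  ∑ c : stab (stairCol m),
    if g * (c : Perm _) ∈ stab (stairRow m) then (Perm.sign (c : Perm (Stair m)) : ℤ) else 0

theorem tabInt_spec (g : Perm (Stair m)) : tabCoef (stairRep m g) = (tabInt m g : ℂ) := by
  rw [stairRep, tabCoef_rep, tabInt, Int.cast_sum]
  exact sum_congr rfl fun c _ => by split_ifs <;> simp

theorem tabInt_mod_two (g : Perm (Stair m)) :
    (tabInt m g : ZMod 2) = if g ∈ rcSet m then 1 else 0 := by
  by_cases hg : g ∈ rcSet m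
  · obtain ⟨p, -, rfl⟩ := mem_image.mp hg
    rw [if_pos (show (p.1 : Perm (Stair m)) * p.2 ∈ rcSet m from mem_image.mpr ⟨p, mem_univ _, rfl⟩),
      tabInt, Int.cast_sum, sum_eq_single p.2⁻¹]
    · rw [if_pos (by simp)]
      rcases Int.units_eq_one_or (Perm.sign ((p.2⁻¹ : stab (stairCol m)) : Perm (Stair m))) with e | e <;>
        rw [e] <;> simp [CharTwo.neg_eq]
    · intro c _ hne
      rw [if_neg, Int.cast_zero]
      intro hmem
      refine hne (eq_inv_of_mul_eq_one_right (Subtype.ext (stab_inter_eq_one (stair_injective m)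
        ?_ (mul_mem p.2.2 c.2))))
      have e : (p.2 : Perm (Stair m)) * (c : Perm (Stair m))
          = (p.1 : Perm (Stair m))⁻¹ * ((p.1 : Perm (Stair m)) * p.2 * c) := by
        simp [mul_assoc]
      rw [Subgroup.coe_mul, e]
      exact mul_mem (inv_mem p.1.2) hmem
    · exact fun h => absurd (mem_univ _) h
  · rw [if_neg hg, tabInt, sum_eq_zero (fun c _ => if_neg fun hmem => hg ?_), Int.cast_zero]
    exact mem_image.mpr ⟨(⟨_, hmem⟩, c⁻¹), mem_univ _, by simp⟩

/-- Several pairs of functionals give a coefficient function of the tensor square; if its matrix is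
invertible the operators are independent. -/
theorem tprod_indep_of_det {G V I : Type} [Group G] [Fintype G] [DecidableEq G] [Fintype I]
    [AddCommGroup V] [Module ℂ V] [FiniteDimensional ℂ V] (ρ : Representation ℂ G V)
    (f f' : I → Module.End ℂ V →ₗ[ℂ] ℂ) (u : G → ℂ)
    (hu : ∀ g, u g = ∑ i, f i (ρ g) * f' i (ρ g))
    (hdet : (Matrix.of fun k g : G => u (k⁻¹ * g)).det ≠ 0) :
    LinearIndependent ℂ fun g => ρ.tprod ρ g := by
  let P : I → Module.End ℂ V ⊗[ℂ] Module.End ℂ V →ₗ[ℂ] ℂ := fun i =>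
    TensorProduct.lift (((LinearMap.mul ℂ ℂ).comp (f i)).compl₂ (f' i))
  let Ω := (∑ i, P i).comp (homTensorHomEquiv ℂ V V V V).symm.toLinearMap
  have hΩ : ∀ g, Ω (ρ.tprod ρ g) = u g := fun g => by
    have e : (homTensorHomEquiv ℂ V V V V).symm (ρ.tprod ρ g) = ρ g ⊗ₜ ρ g := by
      rw [LinearEquiv.symm_apply_eq, homTensorHomEquiv_apply, TensorProduct.homTensorHomMap_apply]
      rfl
    show (∑ i, P i) ((homTensorHomEquiv ℂ V V V V).symm (ρ.tprod ρ g)) = _
    rw [e, LinearMap.sum_apply, hu]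
    rfl
  refine Fintype.linearIndependent_iff.mpr fun a ha => ?_
  have hz : (Matrix.of fun k g : G => u (k⁻¹ * g)).mulVec a = 0 := by
    funext k
    have h' := congrArg (fun A => Ω (ρ.tprod ρ k⁻¹ * A)) ha
    simp only [Finset.mul_sum, mul_smul_comm, ← map_mul, mul_zero, map_zero, map_sum, map_smul,
      smul_eq_mul, hΩ] at h'
    rw [Pi.zero_apply, ← h']
    exact sum_congr rfl fun g _ => mul_comm _ _
  exact fun i => congrFun (Matrix.eq_zero_of_mulVec_eq_zero hdet hz) i

theorem exists_map_of_det {G V W I : Type} [Group G] [Fintype G] [DecidableEq G] [Fintype I]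
    [AddCommGroup V] [Module ℂ V] [FiniteDimensional ℂ V] [AddCommGroup W] [Module ℂ W]
    [Nontrivial W] (ρ : Representation ℂ G V) (τ : Representation ℂ G W)
    (f f' : I → Module.End ℂ V →ₗ[ℂ] ℂ) (u : G → ℂ)
    (hu : ∀ g, u g = ∑ i, f i (ρ g) * f' i (ρ g))
    (hdet : (Matrix.of fun k g : G => u (k⁻¹ * g)).det ≠ 0) :
    ∃ T : W →ₗ[ℂ] V ⊗[ℂ] V, T ≠ 0 ∧ ∀ g, T ∘ₗ τ g = (ρ.tprod ρ) g ∘ₗ T :=
  exists_intertwiner (ρ.tprod ρ) τ (tprod_indep_of_det ρ f f' u hu hdet)

theorem det_ne_zero_of_mod_two {G : Type} [Group G] [Fintype G] [DecidableEq G] (u : G → ℤ)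
    (hmod : ∀ g, (u g : ZMod 2) = if g = 1 then 1 else 0) :
    (Matrix.of fun k g : G => ((u (k⁻¹ * g) : ℤ) : ℂ)).det ≠ 0 := by
  let M : Matrix G G ℤ := Matrix.of fun k g => u (k⁻¹ * g)
  have e : (Int.castRingHom (ZMod 2)).mapMatrix M = 1 := by
    ext k g
    rw [RingHom.mapMatrix_apply, Matrix.map_apply, Int.coe_castRingHom, Matrix.one_apply]
    show ((u (k⁻¹ * g) : ℤ) : ZMod 2) = _
    rw [hmod]
    exact if_congr inv_mul_eq_one rfl rfl
  intro h0
  have h1 : (M.det : ℂ) = 0 := by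
    rw [← h0]
    show (Int.castRingHom ℂ) M.det = _
    rw [RingHom.map_det]
    rfl
  have h2 := (Int.castRingHom (ZMod 2)).map_det M
  rw [Int.cast_eq_zero.mp h1, map_zero, e, Matrix.det_one] at h2
  exact zero_ne_one h2

/-- The coefficient functional of a translate. -/
noncomputable def transFun (m : ℕ) (a b : Perm (Stair m)) :
    Module.End ℂ (specht (stairRow m) (stairCol m)) →ₗ[ℂ] ℂ :=
  (tabFun (stairRow m) (stairCol m)).comp
    ((LinearMap.mulLeft ℂ (stairRep m a)).comp (LinearMap.mulRight ℂ (stairRep m b)))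

theorem transFun_apply (a b g : Perm (Stair m)) :
    transFun m a b (stairRep m g) = (tabInt m (a * g * b) : ℂ) := by
  rw [← tabInt_spec]
  show tabCoef (stairRep m a * (stairRep m g * stairRep m b)) = _
  rw [← map_mul, ← map_mul, mul_assoc]

/-- The index of two translates. -/
abbrev Pair (m : ℕ) : Type :=
  (Perm (Stair m) × Perm (Stair m)) × Perm (Stair m) × Perm (Stair m)

theorem exists_odd_delta (h : ParityWitness) (m : ℕ) :
    ∃ c : Pair m → ℤ, ∀ g, ((∑ q : Pair m,
      c q * tabInt m (q.1.1 * g * q.1.2) * tabInt m (q.2.1 * g * q.2.2) : ℤ) : ZMod 2)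
        = if g = 1 then 1 else 0 := by
  classical
  obtain ⟨c, hc⟩ := (Submodule.mem_span_range_iff_exists_fun (ZMod 2)).mp (delta_mem_span h m)
  refine ⟨fun q => ((c q).val : ℤ), fun g => ?_⟩
  have e := congrFun hc g
  rw [Finset.sum_apply, Pi.single_apply] at e
  rw [← e]
  simp only [Int.cast_sum, Int.cast_mul, Int.cast_natCast, ZMod.natCast_zmod_val, tabInt_mod_two,
    Pi.smul_apply, smul_eq_mul, pairFun]
  exact sum_congr rfl fun q _ => by split_ifs <;> simp_all

theorem exists_map_of_funs {α ι κ I : Type} [Fintype α] [DecidableEq α] [DecidableEq ι]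
    [DecidableEq κ] [Fintype ι] [Fintype I] (row : α → ι) (col : α → κ) {W : Type}
    [AddCommGroup W] [Module ℂ W] [Nontrivial W] (τ : Representation ℂ (Perm α) W)
    (f f' : I → Module.End ℂ (specht row col) →ₗ[ℂ] ℂ) (u : Perm α → ℂ)
    (hu : ∀ g, u g = ∑ i, f i (spechtRep row col g) * f' i (spechtRep row col g))
    (hdet : (Matrix.of fun k g : Perm α => u (k⁻¹ * g)).det ≠ 0) :
    ∃ T : W →ₗ[ℂ] (specht row col ⊗[ℂ] specht row col),
      T ≠ 0 ∧ ∀ g, T ∘ₗ τ g = ((spechtRep row col).tprod (spechtRep row col)) g ∘ₗ T :=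
  exists_map_of_det (spechtRep row col) τ f f' u hu hdet

theorem coeff_sum_eq (m : ℕ) (c : Pair m → ℤ) (g : Perm (Stair m)) :
    ((∑ q : Pair m,
      c q * tabInt m (q.1.1 * g * q.1.2) * tabInt m (q.2.1 * g * q.2.2) : ℤ) : ℂ)
      = ∑ q : Pair m, ((c q : ℂ) • transFun m q.1.1 q.1.2) (stairRep m g)
          * transFun m q.2.1 q.2.2 (stairRep m g) := by
  simp only [Int.cast_sum, Int.cast_mul, LinearMap.smul_apply, smul_eq_mul, transFun_apply]

theorem exists_map_stair (m : ℕ) {W : Type} [AddCommGroup W] [Module ℂ W] [Nontrivial W]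
    (τ : Representation ℂ (Perm (Stair m)) W) (c : Pair m → ℤ) (u : Perm (Stair m) → ℤ)
    (hu : ∀ g, u g = ∑ q : Pair m,
      c q * tabInt m (q.1.1 * g * q.1.2) * tabInt m (q.2.1 * g * q.2.2))
    (hdet : (Matrix.of fun k g : Perm (Stair m) => ((u (k⁻¹ * g) : ℤ) : ℂ)).det ≠ 0) :
    ∃ T : W →ₗ[ℂ] (specht (stairRow m) (stairCol m) ⊗[ℂ] specht (stairRow m) (stairCol m)),
      T ≠ 0 ∧ ∀ g, T ∘ₗ τ g = ((stairRep m).tprod (stairRep m)) g ∘ₗ T :=
  exists_map_of_funs (I := Pair m) (stairRow m) (stairCol m) τ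
    (fun q : Pair m => (c q : ℂ) • transFun m q.1.1 q.1.2) (fun q : Pair m => transFun m q.2.1 q.2.2)
    (fun g => ((u g : ℤ) : ℂ)) (fun g => (congrArg _ (hu g)).trans (coeff_sum_eq m c g)) hdet

/-- An integer combination of products of two translated coefficients. -/
def pairSum (m : ℕ) (c : Pair m → ℤ) (g : Perm (Stair m)) : ℤ :=
  ∑ q : Pair m, c q * tabInt m (q.1.1 * g * q.1.2) * tabInt m (q.2.1 * g * q.2.2)

theorem exists_map_of_odd (m : ℕ) {W : Type} [AddCommGroup W] [Module ℂ W] [Nontrivial W]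
    (τ : Representation ℂ (Perm (Stair m)) W) (c : Pair m → ℤ)
    (hc : ∀ g, (pairSum m c g : ZMod 2) = if g = 1 then 1 else 0) :
    ∃ T : W →ₗ[ℂ] (specht (stairRow m) (stairCol m) ⊗[ℂ] specht (stairRow m) (stairCol m)),
      T ≠ 0 ∧ ∀ g, T ∘ₗ τ g = ((stairRep m).tprod (stairRep m)) g ∘ₗ T :=
  exists_map_stair m τ c (pairSum m c) (fun _ => rfl) (det_ne_zero_of_mod_two (pairSum m c) hc)

/-- Saxl's conjecture follows from the parity witnesses. -/
theorem saxl_of_parity (h : ParityWitness) : SaxlStatement := by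
  intro m W _ _ _ τ
  obtain ⟨c, hc⟩ := exists_odd_delta h m
  exact exists_map_of_odd m τ c hc

end Vale.Agent.P197.Saxl
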