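import Vale.Agent.P197.Saxl.Defs

/-!
# P197: tableaux, block types, and two counting facts

`wt f = ∑ (2 ^ size - 1)` over the blocks of a labelling `f`.  A labelling that meets every column
of a tableau at most once has weight at most that of the rows, with equality only in the trivial
way; merging the tail of a row with the head of the next one increases the weight.
-/

namespace Vale.Agent.P197.Saxl

open Finset

variable {α : Type} [Fintype α] [DecidableEq α]

/-- The set of points with a given label. -/
def block (f : α → ℕ) (i : ℕ) : Finset α := univ.filter (fun x => f x = i)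

theorem mem_block {f : α → ℕ} {i : ℕ} {x : α} : x ∈ block f i ↔ f x = i := by simp [block]

/-- The weight of a labelling. -/
def wt (f : α → ℕ) : ℕ := ∑ i ∈ univ.image f, (2 ^ (block f i).card - 1)

/-- The position of `x` inside its block for the order given by `ord`. -/
def rk (f ord : α → ℕ) (x : α) : ℕ := ((block f (f x)).filter (fun y => ord y < ord x)).card

theorem sum_two_pow_rank (ord : α → ℕ) (hord : Function.Injective ord) : ∀ S : Finset α,
    ∑ x ∈ S, 2 ^ (S.filter (fun y => ord y < ord x)).card = 2 ^ S.card - 1 := by
  intro S
  induction S using Finset.induction_on_max_value ord with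
  | empty => simp
  | insert a S ha hmax ih =>
    have hlt : ∀ y ∈ S, ord y < ord a := fun y hy =>
      lt_of_le_of_ne (hmax y hy) fun h => ha (hord h ▸ hy)
    rw [sum_insert ha, card_insert_of_notMem ha, filter_insert, if_neg (lt_irrefl _),
      filter_true_of_mem hlt]
    have h2 : ∀ x ∈ S, 2 ^ ((insert a S).filter (fun y => ord y < ord x)).card
        = 2 ^ (S.filter (fun y => ord y < ord x)).card := fun x hx => by
      rw [filter_insert, if_neg (not_lt.mpr (hlt x hx).le)]
    rw [sum_congr rfl h2, ih, pow_succ]
    have := Nat.one_le_two_pow (n := S.card)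
    omega

theorem wt_eq_sum (f ord : α → ℕ) (hord : Function.Injective ord) :
    wt f = ∑ x, 2 ^ rk f ord x := by
  rw [← sum_fiberwise_of_maps_to (g := f) (t := univ.image f)
    fun x _ => mem_image_of_mem f (mem_univ x)]
  refine sum_congr rfl fun i _ => ?_
  rw [← sum_two_pow_rank ord hord (block f i)]
  refine sum_congr rfl fun x hx => ?_
  rw [rk, mem_block.mp hx]

theorem card_block_comp (f : α → ℕ) (g : Equiv.Perm α) (i : ℕ) :
    (block (f ∘ g) i).card = (block f i).card :=
  card_equiv g fun x => by simp [mem_block]

theorem wt_comp (f : α → ℕ) (g : Equiv.Perm α) : wt (f ∘ g) = wt f := by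
  have h : univ.image (f ∘ g) = univ.image f := by
    rw [← image_image, image_univ_equiv g]
  rw [wt, wt, h]
  exact sum_congr rfl fun i _ => by rw [card_block_comp]

theorem wt_eq_sum_subset (f : α → ℕ) {T : Finset ℕ} (hT : univ.image f ⊆ T) :
    wt f = ∑ i ∈ T, (2 ^ (block f i).card - 1) := by
  refine sum_subset hT fun i _ hi => ?_
  have : block f i = ∅ := eq_empty_of_forall_notMem fun x hx =>
    hi (mem_image.mpr ⟨x, mem_univ x, mem_block.mp hx⟩)
  simp [this]

/-- A tableau: the cells have distinct positions forming a Young diagram. -/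
structure IsTableau (row col : α → ℕ) : Prop where
  inj : Function.Injective fun x => (row x, col x)
  down : ∀ x i j, i ≤ row x → j ≤ col x → ∃ y, row y = i ∧ col y = j

omit [Fintype α] [DecidableEq α] in
theorem IsTableau.swap {row col : α → ℕ} (h : IsTableau row col) : IsTableau col row :=
  ⟨fun _ _ e => h.inj (Prod.ext (Prod.ext_iff.mp e).2 (Prod.ext_iff.mp e).1), fun x i j hi hj =>
    let ⟨y, h1, h2⟩ := h.down x j i hj hi
    ⟨y, h2, h1⟩⟩

/-- A numbering of the points. -/
noncomputable def num (x : α) : ℕ := (Fintype.equivFin α x : ℕ)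

omit [DecidableEq α] in
theorem num_lt (x : α) : num x < Fintype.card α := (Fintype.equivFin α x).2

omit [DecidableEq α] in
theorem num_injective : Function.Injective (num (α := α)) := fun _ _ h =>
  (Fintype.equivFin α).injective (Fin.ext h)

/-- An injective order refining the column index. -/
noncomputable def colOrd (col : α → ℕ) (x : α) : ℕ := col x * Fintype.card α + num x

omit [DecidableEq α] in
theorem colOrd_injective (col : α → ℕ) : Function.Injective (colOrd col) := fun x y h => by
  have h1 := congrArg (· % Fintype.card α) h
  simp only [colOrd, Nat.mul_add_mod_self_right, Nat.mod_eq_of_lt (num_lt _)] at h1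
  exact num_injective h1

omit [DecidableEq α] in
theorem col_lt_of_colOrd_lt {col : α → ℕ} {x y : α} (h : colOrd col x < colOrd col y) :
    col x ≤ col y := by
  by_contra hc
  have := num_lt y
  have h2 : (col y + 1) * Fintype.card α ≤ col x * Fintype.card α :=
    Nat.mul_le_mul_right _ (by omega)
  rw [colOrd, colOrd] at h
  rw [Nat.succ_mul] at h2
  omega

variable {row col : α → ℕ}

theorem IsTableau.card_left (hT : IsTableau row col) (x : α) :
    ((block row (row x)).filter (fun y => col y < col x)).card = col x := by
  refine Eq.trans ?_ (card_range (col x))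
  refine card_bij (fun y _ => col y) (fun y hy => mem_range.mpr (mem_filter.mp hy).2)
    (fun y hy z hz h => hT.inj (Prod.ext ?_ h)) fun j hj => ?_
  · show row y = row z
    rw [mem_block.mp (mem_filter.mp hy).1, mem_block.mp (mem_filter.mp hz).1]
  · obtain ⟨y, h1, h2⟩ := hT.down x (row x) j le_rfl (mem_range.mp hj).le
    exact ⟨y, mem_filter.mpr ⟨mem_block.mpr h1, h2 ▸ mem_range.mp hj⟩, h2⟩

theorem rk_le {f : α → ℕ} (hinj : Function.Injective fun x => (f x, col x)) (x : α) :
    rk f (colOrd col) x ≤ col x := by
  refine le_trans (card_le_card_of_injOn col (t := range (col x)) (fun y hy => ?_) ?_) (card_range _).le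
  · obtain ⟨h1, h2⟩ := mem_filter.mp hy
    refine mem_coe.mpr (mem_range.mpr (lt_of_le_of_ne (col_lt_of_colOrd_lt h2) fun h => ?_))
    rw [hinj (show (fun x => (f x, col x)) y = (fun x => (f x, col x)) x from
      Prod.ext (show f y = f x from mem_block.mp h1) h)] at h2
    exact lt_irrefl _ h2
  · intro y hy z hz h
    exact hinj (Prod.ext ((mem_block.mp (mem_filter.mp (mem_coe.mp hy)).1).trans
      (mem_block.mp (mem_filter.mp (mem_coe.mp hz)).1).symm) h)

theorem IsTableau.rk_row (hT : IsTableau row col) (x : α) : rk row (colOrd col) x = col x := by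
  refine le_antisymm (rk_le hT.inj x) (le_of_eq_of_le (hT.card_left x).symm (card_le_card ?_))
  intro y hy
  obtain ⟨h1, h2⟩ := mem_filter.mp hy
  refine mem_filter.mpr ⟨h1, ?_⟩
  by_contra h
  rcases lt_or_eq_of_le (not_lt.mp h) with h3 | h3
  · exact absurd (col_lt_of_colOrd_lt h3) (not_le.mpr h2)
  · rw [colOrd_injective col h3] at h2
    exact lt_irrefl _ h2

/-- Pigeonhole: a heavier labelling repeats a label inside a column. -/
theorem IsTableau.wt_le (hT : IsTableau row col) {f : α → ℕ}
    (hinj : Function.Injective fun x => (f x, col x)) : wt f ≤ wt row := by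
  rw [wt_eq_sum f _ (colOrd_injective col), wt_eq_sum row _ (colOrd_injective col)]
  exact sum_le_sum fun x _ =>
    Nat.pow_le_pow_right (by norm_num) ((rk_le hinj x).trans (hT.rk_row x).ge)

/-- A permutation whose row pattern meets each column once per row is a row times a column
permutation. -/
theorem IsTableau.mem_rc (hT : IsTableau row col) {g : Equiv.Perm α}
    (hinj : Function.Injective fun x => (row (g x), col x)) :
    ∃ r ∈ stab row, ∃ c ∈ stab col, g = r * c := by
  classical
  have hrk : ∀ x, rk (row ∘ g) (colOrd col) x = col x := by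
    have h := wt_eq_sum (row ∘ g) _ (colOrd_injective col)
    rw [wt_comp, wt_eq_sum row _ (colOrd_injective col)] at h
    have hle : ∀ x ∈ (univ : Finset α),
        2 ^ rk (row ∘ g) (colOrd col) x ≤ 2 ^ rk row (colOrd col) x := fun x _ =>
      Nat.pow_le_pow_right (by norm_num) ((rk_le (f := row ∘ g) hinj x).trans (hT.rk_row x).ge)
    intro x
    rw [← hT.rk_row x]
    exact Nat.pow_right_injective le_rfl ((sum_eq_sum_iff_of_le hle).mp h.symm x (mem_univ x))
  have hex : ∀ q, ∃ p, row p = row (g q) ∧ col p = col q := by
    intro q
    by_contra hno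
    have h1 : (block row (row (g q))).card ≤ col q := by
      refine (card_le_card_of_injOn col (t := range (col q)) (fun y hy => ?_) ?_).trans
        (card_range _).le
      · refine mem_coe.mpr (mem_range.mpr (not_le.mp fun hle => hno ?_))
        obtain ⟨p, hp1, hp2⟩ := hT.down y (row y) (col q) le_rfl hle
        exact ⟨p, hp1.trans (mem_block.mp hy), hp2⟩
      · intro y hy z hz h
        exact hT.inj (Prod.ext
          ((mem_block.mp (mem_coe.mp hy)).trans (mem_block.mp (mem_coe.mp hz)).symm) h)
    have h2 : rk (row ∘ g) (colOrd col) q < (block (row ∘ g) (row (g q))).card := by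
      refine card_lt_card ((ssubset_iff_of_subset (filter_subset _ _)).mpr ⟨q, ?_, ?_⟩)
      · exact mem_block.mpr rfl
      · exact fun h => lt_irrefl _ (mem_filter.mp h).2
    rw [hrk, card_block_comp] at h2
    omega
  choose φ hφ1 hφ2 using hex
  have hbij : Function.Bijective φ := Finite.injective_iff_bijective.mp fun a b h =>
    hinj (Prod.ext (show row (g a) = row (g b) by rw [← hφ1, ← hφ1, h])
      (show col a = col b by rw [← hφ2 a, ← hφ2 b, h]))
  refine ⟨g * (Equiv.ofBijective φ hbij)⁻¹, fun p => ?_, Equiv.ofBijective φ hbij,
    fun x => hφ2 x, by rw [inv_mul_cancel_right]⟩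
  rw [Equiv.Perm.mul_apply, ← hφ1]
  exact congrArg row ((Equiv.ofBijective φ hbij).apply_symm_apply p)

omit [Fintype α] [DecidableEq α] in
theorem exists_col_swap {f : α → ℕ} {x : Equiv.Perm α}
    (h : ¬ Function.Injective fun p => (f (x p), col p)) :
    ∃ p q, p ≠ q ∧ col p = col q ∧ f (x p) = f (x q) := by
  obtain ⟨p, q, hpq, hne⟩ := Function.not_injective_iff.mp h
  exact ⟨p, q, hne, (Prod.ext_iff.mp hpq).2, (Prod.ext_iff.mp hpq).1⟩

omit [Fintype α] in
theorem swap_mem_stab {f : α → ℕ} {p q : α} (h : f p = f q) : Equiv.swap p q ∈ stab f := fun x => by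
  rcases eq_or_ne x p with rfl | hp
  · rw [Equiv.swap_apply_left]; exact h.symm
  rcases eq_or_ne x q with rfl | hq
  · rw [Equiv.swap_apply_right]; exact h
  · rw [Equiv.swap_apply_of_ne_of_ne hp hq]

/-- Merging the end of row `i` from column `j` on with row `i + 1` up to column `j`. -/
def mergeLab (row col : α → ℕ) (i j M : ℕ) (u : α) : ℕ :=
  if (row u = i ∧ j ≤ col u) ∨ (row u = i + 1 ∧ col u ≤ j) then M else row u

theorem IsTableau.wt_merge (hT : IsTableau row col) {p q : α} {M : ℕ}
    (hq : row q = row p + 1) (hc : col q = col p) (hM : ∀ u, row u < M) :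
    wt row < wt (mergeLab row col (row p) (col p) M) := by
  classical
  set i := row p
  set j := col p
  set f := mergeLab row col i j M with hf
  set T := range (M + 1)
  have hTr : univ.image row ⊆ T := fun l hl => by
    obtain ⟨u, -, rfl⟩ := mem_image.mp hl
    exact mem_range.mpr (by have := hM u; omega)
  have hTf : univ.image f ⊆ T := fun l hl => by
    obtain ⟨u, -, rfl⟩ := mem_image.mp hl
    refine mem_range.mpr ?_
    simp only [hf, mergeLab]
    split <;> [omega; (have := hM u; omega)]
  rw [wt_eq_sum_subset row hTr, wt_eq_sum_subset f hTf]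
  have hi : i + 1 < M := hq ▸ hM q
  have hL : (block row (i + 1)).card ≤ (block row i).card := by
    have hex : ∀ u : α, row u = i + 1 → ∃ v, row v = i ∧ col v = col u := fun u hu =>
      hT.down u i (col u) (by omega) le_rfl
    refine card_le_card_of_forall_subsingleton (fun u v => col v = col u) (fun u hu => ?_) ?_
    · obtain ⟨v, h1, h2⟩ := hex u (mem_block.mp hu)
      exact ⟨v, mem_block.mpr h1, h2⟩
    · intro v _ u hu u' hu'
      exact hT.inj (Prod.ext ((mem_block.mp hu.1).trans (mem_block.mp hu'.1).symm)
        (hu.2.symm.trans hu'.2))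
  have hblock : block f M = (block row i).filter (fun u => j ≤ col u) ∪
      (block row (i + 1)).filter (fun u => col u ≤ j) := by
    ext u
    simp only [mem_block, mem_union, mem_filter, hf, mergeLab]
    constructor
    · intro h
      by_contra hn
      rw [if_neg hn] at h
      exact absurd h (hM u).ne
    · intro h
      rw [if_pos h]
  have hU : (block f M).card = (block row i).card + 1 := by
    rw [hblock, card_union_of_disjoint (disjoint_left.mpr fun u h1 h2 => by
      have := mem_block.mp (mem_filter.mp h1).1
      have := mem_block.mp (mem_filter.mp h2).1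
      omega)]
    have h1 := hT.card_left p
    have h2 : ((block row (i + 1)).filter (fun u => col u ≤ j)).card = j + 1 := by
      have h3 := hT.card_left q
      rw [hq, hc] at h3
      have : (block row (i + 1)).filter (fun u => col u ≤ j)
          = insert q ((block row (i + 1)).filter (fun u => col u < j)) := by
        ext u
        simp only [mem_insert, mem_filter, mem_block]
        constructor
        · rintro ⟨hu, hle⟩
          rcases lt_or_eq_of_le hle with h | h
          · exact Or.inr ⟨hu, h⟩
          · exact Or.inl (hT.inj (Prod.ext (hu.trans hq.symm) (h.trans hc.symm)))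
        · rintro (rfl | ⟨hu, h⟩)
          · exact ⟨hq, hc.le⟩
          · exact ⟨hu, h.le⟩
      rw [this, card_insert_of_notMem (fun h => by
        have := (mem_filter.mp h).2
        omega), h3]
    have h4 : ((block row i).filter (fun u => j ≤ col u)).card + j = (block row i).card := by
      have := card_filter_add_card_filter_not (s := block row i) (p := fun u => j ≤ col u)
      simp only [not_le] at this
      rw [h1] at this
      exact this
    omega
  have hothers : ∀ l ∈ T \ {i, i + 1, M}, block f l = block row l := fun l hl => by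
    simp only [mem_sdiff, mem_insert, mem_singleton, not_or] at hl
    ext u
    simp only [mem_block, hf, mergeLab]
    split_ifs with h <;> constructor <;> intro h' <;> omega
  have hsub : ({i, i + 1, M} : Finset ℕ) ⊆ T := fun l hl => by
    simp only [mem_insert, mem_singleton] at hl
    exact mem_range.mpr (by omega)
  rw [← sum_sdiff hsub, ← sum_sdiff hsub (f := fun l => 2 ^ (block f l).card - 1),
    sum_congr rfl (fun l hl => by rw [hothers l hl] :
      ∀ l ∈ T \ {i, i + 1, M}, 2 ^ (block f l).card - 1 = 2 ^ (block row l).card - 1)]
  refine Nat.add_lt_add_left ?_ _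
  have hrM : block row M = ∅ := eq_empty_of_forall_notMem fun u hu => (hM u).ne (mem_block.mp hu)
  rw [sum_insert (by simp; omega), sum_insert (by simp; omega), sum_singleton, sum_insert
    (by simp; omega), sum_insert (by simp; omega), sum_singleton, hrM, hU]
  have e1 : 2 ^ (block row (i + 1)).card ≤ 2 ^ (block row i).card :=
    Nat.pow_le_pow_right (by norm_num) hL
  have := Nat.one_le_two_pow (n := (block row i).card)
  simp only [card_empty, pow_zero, pow_succ]
  omega

end Vale.Agent.P197.Saxl
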