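import Vale.Agent.P197.Saxl.Shapes

/-!
# P197: straightening modulo 2

For functions on the symmetric group with values in `ZMod 2`: if a function satisfies the relations
coming from all heavier block types, then its row symmetrisation is that of a function invariant
under the column group.
-/

namespace Vale.Agent.P197.Saxl

open Finset Equiv

variable {α : Type} [Fintype α] [DecidableEq α]

/-- Symmetrisation over the stabiliser of a labelling. -/
def lsum (f : α → ℕ) (a : Perm α → ZMod 2) (x : Perm α) : ZMod 2 :=
  ∑ h : stab f, a ((h : Perm α) * x)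

theorem lsum_mul_left (f : α → ℕ) (a : Perm α → ZMod 2) {r : Perm α} (hr : r ∈ stab f)
    (x : Perm α) : lsum f a (r * x) = lsum f a x :=
  Fintype.sum_equiv (Equiv.mulRight (⟨r, hr⟩ : stab f)) _ _ fun h => by simp [mul_assoc]

theorem lsum_add (f : α → ℕ) (a b : Perm α → ZMod 2) (x : Perm α) :
    lsum f (a + b) x = lsum f a x + lsum f b x := by
  simp [lsum, sum_add_distrib]

/-- The products of two stabilisers. -/
def rrSet (row f : α → ℕ) : Finset (Perm α) :=
  (univ : Finset (stab row × stab f)).image fun p => (p.1 : Perm α) * (p.2 : Perm α)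

theorem mem_rrSet {row f : α → ℕ} {g : Perm α} :
    g ∈ rrSet row f ↔ ∃ r ∈ stab row, ∃ u ∈ stab f, g = r * u := by
  simp only [rrSet, mem_image, mem_univ, true_and]
  exact ⟨fun ⟨p, hp⟩ => ⟨p.1, p.1.2, p.2, p.2.2, hp.symm⟩,
    fun ⟨r, hr, u, hu, h⟩ => ⟨(⟨r, hr⟩, ⟨u, hu⟩), h.symm⟩⟩

/-- The relations of the heavier types. -/
def Good (row : α → ℕ) (a : Perm α → ZMod 2) : Prop :=
  ∀ f, wt row < wt f → ∀ x, ∑ g ∈ rrSet row f, a (g * x) = 0

theorem good_of_annihilated {row : α → ℕ} {a : Perm α → ZMod 2}
    (h : ∀ f, wt row < wt f → ∀ t x, lsum f (fun y => a (t * y)) x = 0) : Good row a := by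
  classical
  intro f hf x
  rw [← sum_fiberwise_of_maps_to (g := fun g : Perm α => (g : Perm α ⧸ stab f))
    (t := (rrSet row f).image _) fun g hg => mem_image_of_mem _ hg]
  refine sum_eq_zero fun q hq => ?_
  obtain ⟨g₀, hg₀, rfl⟩ := mem_image.mp hq
  refine Eq.trans ?_ (h f hf g₀ x)
  refine (sum_bij (fun (u : stab f) _ => g₀ * (u : Perm α)) (fun u _ => ?_) (fun u _ v _ e => ?_)
    (fun g hg => ?_) fun u _ => by rw [mul_assoc]).symm
  · obtain ⟨r, hr, v, hv, hg⟩ := mem_rrSet.mp hg₀
    refine mem_filter.mpr ⟨mem_rrSet.mpr ⟨r, hr, v * u, mul_mem hv u.2, by rw [hg, mul_assoc]⟩, ?_⟩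
    exact (QuotientGroup.eq.mpr (by simpa using u.2)).symm
  · exact Subtype.ext (mul_left_cancel e)
  · exact ⟨⟨g₀⁻¹ * g, QuotientGroup.eq.mp (mem_filter.mp hg).2.symm⟩, mem_univ _, by simp⟩

/-- Invariance under the column group on the left. -/
def LeftInv (col : α → ℕ) (b : Perm α → ZMod 2) : Prop :=
  ∀ c ∈ stab col, ∀ x, b (c * x) = b x

theorem LeftInv.add {col : α → ℕ} {a b : Perm α → ZMod 2} (ha : LeftInv col a)
    (hb : LeftInv col b) : LeftInv col (a + b) := fun c hc x => by
  simp [ha c hc x, hb c hc x]

theorem Good.add {row : α → ℕ} {a b : Perm α → ZMod 2} (ha : Good row a) (hb : Good row b) :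
    Good row (a + b) := fun f hf x => by
  simp [sum_add_distrib, ha f hf x, hb f hf x]

theorem two_zero (t : ZMod 2) : t + t = 0 := CharTwo.add_self_eq_zero t

theorem eq_one_of_ne_zero {t : ZMod 2} (h : t ≠ 0) : t = 1 := by
  revert t; decide

variable {row col : α → ℕ}

theorem good_of_leftInv (hT : IsTableau row col) {b : Perm α → ZMod 2} (hb : LeftInv col b) :
    Good row b := by
  classical
  intro f hf x
  rw [← sum_fiberwise_of_maps_to (g := fun g : Perm α => f ∘ (g⁻¹ : Perm α))
    (t := (rrSet row f).image _) fun g hg => mem_image_of_mem _ hg]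
  refine sum_eq_zero fun ψ hψ => ?_
  obtain ⟨g₀, -, rfl⟩ := mem_image.mp hψ
  have hni : ¬ Function.Injective fun p => (f ((g₀⁻¹ : Perm α) p), col p) := fun hinj => by
    have h := hT.wt_le (f := f ∘ (g₀⁻¹ : Perm α)) hinj
    rw [wt_comp] at h
    omega
  obtain ⟨p, q, hne, hc, he⟩ := exists_col_swap hni
  refine sum_involution (fun g _ => swap p q * g) (fun g hg => ?_) (fun g _ _ => ?_)
    (fun g hg => ?_) fun g _ => by simp [← mul_assoc]
  · rw [mul_assoc, hb _ (swap_mem_stab hc), two_zero]
  · exact fun h => hne (swap_eq_one_iff.mp (mul_eq_right.mp h))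
  · obtain ⟨hg1, hg2⟩ := mem_filter.mp hg
    have e : f ((g⁻¹ : Perm α) p) = f ((g⁻¹ : Perm α) q) := by
      have hp := congrFun hg2 p
      have hq := congrFun hg2 q
      simp only [Function.comp_apply] at hp hq
      rw [hp, hq, he]
    obtain ⟨r, hr, u, hu, hgru⟩ := mem_rrSet.mp hg1
    refine mem_filter.mpr ⟨mem_rrSet.mpr
      ⟨r, hr, u * (g⁻¹ * swap p q * g), mul_mem hu ?_, ?_⟩, ?_⟩
    · have := Equiv.mul_swap_eq_swap_mul g⁻¹ p q
      rw [this, mul_assoc, inv_mul_cancel, mul_one]
      exact swap_mem_stab e
    · rw [← mul_assoc, ← hgru]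
      simp [mul_assoc]
    · rw [mul_inv_rev, swap_inv, ← hg2]
      funext y
      simp only [Function.comp_apply, Perm.mul_apply]
      rcases eq_or_ne y p with rfl | hp
      · rw [swap_apply_left]; exact e.symm
      rcases eq_or_ne y q with rfl | hq
      · rw [swap_apply_right]; exact e
      · rw [swap_apply_of_ne_of_ne hp hq]

/-- The number of the entry at a cell. -/
noncomputable def entry (x : Perm α) (p : α) : ℕ := num ((x⁻¹ : Perm α) p)

theorem entry_injective (x : Perm α) : Function.Injective (entry x) :=
  num_injective.comp (x⁻¹ : Perm α).injective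

theorem entry_mul (g x : Perm α) (p : α) : entry (g * x) (g p) = entry x p := by
  simp [entry]

/-- Large entries in low rows give a large key. -/
noncomputable def key (row : α → ℕ) (x : Perm α) : ℕ := ∑ p, row p * entry x p

theorem key_mul (g x : Perm α) : key row (g * x) = ∑ p, row (g p) * entry x p := by
  rw [key, ← Equiv.sum_comp g]
  exact sum_congr rfl fun p _ => by rw [entry_mul]

theorem key_row {r : Perm α} (hr : r ∈ stab row) (x : Perm α) : key row (r * x) = key row x := by
  rw [key_mul]
  exact sum_congr rfl fun p _ => by rw [hr p]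

/-- Entries increase along rows. -/
def RowSorted (row col : α → ℕ) (x : Perm α) : Prop :=
  ∀ p q, row p = row q → col p < col q → entry x p < entry x q

/-- Entries increase down columns. -/
def ColSorted (row col : α → ℕ) (x : Perm α) : Prop :=
  ∀ p q, col p = col q → row p < row q → entry x p < entry x q

omit [Fintype α] [DecidableEq α] in
theorem perm_eq_one {f : α → ℕ} (hf : Function.Injective f) (c : Perm α)
    (h : ∀ p q, f p < f q → f (c p) ≤ f (c q)) : c = 1 := by
  suffices ∀ n p, f p = n → c p = p from Equiv.ext fun p => this _ p rfl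
  intro n
  induction n using Nat.strong_induction_on with
  | _ n ih =>
    intro p hp
    rcases lt_trichotomy (f (c p)) (f p) with hlt | heq | hgt
    · exact c.injective (ih _ (hp ▸ hlt) (c p) rfl)
    · exact hf heq
    · obtain ⟨q, hq⟩ := c.surjective p
      rcases lt_trichotomy (f q) (f p) with hlt | heq | hgt'
      · have := ih _ (hp ▸ hlt) q rfl
        rw [this] at hq
        exact absurd hlt (by rw [hq]; exact lt_irrefl _)
      · rw [hf heq] at hq; exact hq
      · have := h p q hgt'
        rw [hq] at this
        omega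

theorem key_col (hT : IsTableau row col) {x : Perm α} (hx : ColSorted row col x) {c : Perm α}
    (hc : c ∈ stab col) (hne : c ≠ 1) : key row (c * x) < key row x := by
  set M := (∑ p, row p) + 1 with hM
  set n := Fintype.card α
  have hrM : ∀ p, row p < M := fun p => by
    have := single_le_sum (f := row) (fun i _ => Nat.zero_le _) (mem_univ p)
    omega
  set F : α → ℕ := fun p => row p + M * col p with hF
  set H : α → ℕ := fun p => entry x p + n * col p with hH
  have hFlt : ∀ p q, F p < F q → col p < col q ∨ col p = col q ∧ row p < row q := fun p q h => by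
    rcases lt_trichotomy (col p) (col q) with h1 | h1 | h1
    · exact Or.inl h1
    · exact Or.inr ⟨h1, by simp only [hF, h1] at h; omega⟩
    · have h2 := Nat.mul_le_mul_left M (show col q + 1 ≤ col p by omega)
      have := hrM q
      simp only [hF] at h
      rw [Nat.mul_succ] at h2
      omega
  have hFH : ∀ p q, F p < F q → H p < H q := fun p q h => by
    rcases hFlt p q h with h1 | ⟨h1, h2⟩
    · have h3 := Nat.mul_le_mul_left n (show col p + 1 ≤ col q by omega)
      have : entry x p < n := num_lt _
      simp only [hH]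
      rw [Nat.mul_succ] at h3
      omega
    · have := hx p q h1 h2
      simp only [hH, h1]
      omega
  have hFi : Function.Injective F := fun p q h => by
    have h1 : col p = col q := by
      rcases lt_trichotomy (col p) (col q) with h1 | h1 | h1
      · have h2 := Nat.mul_le_mul_left M (show col p + 1 ≤ col q by omega)
        have := hrM p
        simp only [hF] at h
        rw [Nat.mul_succ] at h2
        omega
      · exact h1
      · have h2 := Nat.mul_le_mul_left M (show col q + 1 ≤ col p by omega)
        have := hrM q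
        simp only [hF] at h
        rw [Nat.mul_succ] at h2
        omega
    simp only [hF, h1] at h
    exact hT.inj (Prod.ext (show row p = row q by omega) h1)
  have hmono : Monovary F H := fun p q h => by
    by_contra hh
    exact absurd (hFH q p (not_le.mp hh)) (not_lt.mpr h.le)
  have hlt : ∑ p, F (c p) * H p < ∑ p, F p * H p := by
    refine hmono.sum_comp_perm_mul_lt_sum_mul_iff.mpr fun hm => hne (perm_eq_one hFi c ?_)
    exact fun p q h => hm (hFH p q h)
  have e1 : ∑ p, row (c p) * col p = ∑ p, row p * col p := by
    rw [← Equiv.sum_comp c (fun p => row p * col p)]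
    exact sum_congr rfl fun p _ => by rw [hc p]
  have expand : ∀ R : α → ℕ, ∑ p, (R p + M * col p) * (entry x p + n * col p)
      = ∑ p, R p * entry x p + n * ∑ p, R p * col p
        + ∑ p, M * col p * (entry x p + n * col p) := fun R => by
    rw [mul_sum, ← sum_add_distrib, ← sum_add_distrib]
    exact sum_congr rfl fun p _ => by ring
  have e2 : ∑ p, F (c p) * H p = ∑ p, (row (c p) + M * col p) * (entry x p + n * col p) :=
    sum_congr rfl fun p _ => by simp only [hF, hH, hc p]
  rw [e2, expand, expand row, e1] at hlt
  rw [key_mul, key]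
  omega

theorem key_col_le (hT : IsTableau row col) {x : Perm α} (hx : ColSorted row col x) {c : Perm α}
    (hc : c ∈ stab col) : key row (c * x) ≤ key row x := by
  rcases eq_or_ne c 1 with rfl | hne
  · rw [one_mul]
  · exact (key_col hT hx hc hne).le

theorem exists_sorted (hT : IsTableau row col) (x : Perm α) :
    ∃ r ∈ stab row, RowSorted row col (r * x) := by
  obtain ⟨r, -, hr⟩ := exists_max_image (univ : Finset (stab row))
    (fun r => ∑ p, col p * entry ((r : Perm α) * x) p) ⟨1, mem_univ _⟩
  refine ⟨r, r.2, fun p q hrow hcol => ?_⟩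
  by_contra h
  have hpq : p ≠ q := fun e => by subst e; omega
  set y := (r : Perm α) * x
  have hgt : entry y q < entry y p :=
    lt_of_le_of_ne (not_lt.mp h) fun e => hpq (entry_injective y e).symm
  have := hr (⟨swap p q, swap_mem_stab hrow⟩ * r) (mem_univ _)
  rw [show ((⟨swap p q, swap_mem_stab hrow⟩ * r : stab row) : Perm α) * x = swap p q * y from
    mul_assoc _ _ _] at this
  have e : ∀ u, entry (swap p q * y) u = entry y (swap p q u) := fun u => by
    simp [entry, mul_inv_rev]
  simp only [e] at this
  rw [← sum_sdiff (subset_univ {p, q}), ← sum_sdiff (subset_univ ({p, q} : Finset α))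
    (f := fun u => col u * entry y u), sum_pair hpq, sum_pair hpq, swap_apply_left,
    swap_apply_right] at this
  rw [sum_congr rfl (fun u hu => by
    simp only [mem_sdiff, mem_insert, mem_singleton, not_or] at hu
    rw [swap_apply_of_ne_of_ne hu.2.1 hu.2.2] :
    ∀ u ∈ univ \ ({p, q} : Finset α), col u * entry y (swap p q u) = col u * entry y u)] at this
  obtain ⟨d, hd⟩ := Nat.exists_eq_add_of_lt hcol
  obtain ⟨e', he'⟩ := Nat.exists_eq_add_of_lt hgt
  rw [hd, he'] at this
  nlinarith

theorem sorted_unique (hT : IsTableau row col) {x r : Perm α} (hr : r ∈ stab row)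
    (h1 : RowSorted row col x) (h2 : RowSorted row col (r * x)) : r = 1 := by
  set C := (∑ p, col p) + 1 with hC
  have hcC : ∀ p, col p < C := fun p => by
    have := single_le_sum (f := col) (fun i _ => Nat.zero_le _) (mem_univ p)
    omega
  refine perm_eq_one (f := fun p => row p * C + col p) (fun p q h => ?_) r fun p q h => ?_
  · simp only at h
    rcases lt_trichotomy (row p) (row q) with h' | h' | h'
    · have := Nat.mul_le_mul_right C (show row p + 1 ≤ row q by omega)
      have := hcC p
      rw [Nat.succ_mul] at *
      omega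
    · rw [h'] at h
      exact hT.inj (Prod.ext h' (show col p = col q by omega))
    · have := Nat.mul_le_mul_right C (show row q + 1 ≤ row p by omega)
      have := hcC q
      rw [Nat.succ_mul] at *
      omega
  · simp only [hr p, hr q] at h ⊢
    rcases lt_trichotomy (row p) (row q) with h' | h' | h'
    · have := Nat.mul_le_mul_right C (show row p + 1 ≤ row q by omega)
      have := hcC (r p)
      rw [Nat.succ_mul] at *
      omega
    · rw [h'] at h ⊢
      by_contra hlt
      have hcr : col (r q) < col (r p) := by omega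
      have hN := h2 (r q) (r p) (by rw [hr p, hr q, h']) hcr
      rw [entry_mul, entry_mul] at hN
      have := h1 p q h' (by omega)
      omega
    · have := Nat.mul_le_mul_right C (show row q + 1 ≤ row p by omega)
      have := hcC q
      rw [Nat.succ_mul] at *
      omega

theorem exists_descent (hT : IsTableau row col) {x : Perm α} (h : ¬ ColSorted row col x) :
    ∃ p q, row q = row p + 1 ∧ col q = col p ∧ entry x q < entry x p := by
  simp only [ColSorted, not_forall, not_lt] at h
  obtain ⟨p, q, hc, hr, hle⟩ := h
  suffices ∀ d p q, row q = row p + d + 1 → col q = col p → entry x q ≤ entry x p →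
      ∃ p q, row q = row p + 1 ∧ col q = col p ∧ entry x q < entry x p by
    obtain ⟨d, hd⟩ := Nat.exists_eq_add_of_lt hr
    exact this d p q hd hc.symm hle
  intro d
  induction d with
  | zero =>
    intro p q hd hc hle
    refine ⟨p, q, hd, hc, lt_of_le_of_ne hle fun e => ?_⟩
    rw [entry_injective x e] at hd
    omega
  | succ d ih =>
    intro p q hd hc hle
    obtain ⟨v, hv1, hv2⟩ := hT.down q (row p + 1) (col p) (by omega) hc.ge
    rcases lt_or_ge (entry x v) (entry x p) with h | h
    · exact ⟨p, v, hv1, hv2, h⟩
    · exact ih v q (by omega) (hc.trans hv2.symm) (hle.trans h)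

theorem colSorted_of_top (hT : IsTableau row col) {a : Perm α → ZMod 2} (ha : Good row a)
    {x : Perm α} (hrs : RowSorted row col x) (hx : lsum row a x ≠ 0)
    (htop : ∀ y, lsum row a y ≠ 0 → key row y ≤ key row x) : ColSorted row col x := by
  classical
  by_contra hns
  obtain ⟨p, q, hrow, hcol, hN⟩ := exists_descent hT hns
  set M := (∑ u, row u) + 1 with hM
  have hrM : ∀ u, row u < M := fun u => by
    have := single_le_sum (f := row) (fun i _ => Nat.zero_le _) (mem_univ u)
    omega
  set f := mergeLab row col (row p) (col p) M with hf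
  have hsum := ha f (hT.wt_merge hrow hcol hrM) x
  rw [← sum_fiberwise_of_maps_to (g := fun g : Perm α => row ∘ g)
    (t := (rrSet row f).image _) fun g hg => mem_image_of_mem _ hg] at hsum
  have hfib : ∀ g₀ ∈ rrSet row f,
      ∑ g ∈ (rrSet row f).filter (fun g : Perm α => row ∘ g = row ∘ g₀), a (g * x)
        = lsum row a (g₀ * x) := fun g₀ hg₀ => by
    refine (sum_bij (fun (h : stab row) _ => (h : Perm α) * g₀) (fun h _ => ?_)
      (fun u _ v _ e => Subtype.ext (mul_right_cancel e)) (fun g hg => ?_)
      fun h _ => by rw [mul_assoc]).symm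
    · obtain ⟨r, hr, u, hu, hg⟩ := mem_rrSet.mp hg₀
      refine mem_filter.mpr ⟨mem_rrSet.mpr ⟨h * r, mul_mem h.2 hr, u, hu, by rw [hg, mul_assoc]⟩, ?_⟩
      funext y
      exact h.2 (g₀ y)
    · refine ⟨⟨g * g₀⁻¹, fun y => ?_⟩, mem_univ _, by simp⟩
      simpa using congrFun (mem_filter.mp hg).2 ((g₀⁻¹ : Perm α) y)
  have hone : (1 : Perm α) ∈ rrSet row f :=
    mem_rrSet.mpr ⟨1, one_mem _, 1, one_mem _, (one_mul 1).symm⟩
  have hzero : ∀ g₀ ∈ rrSet row f, row ∘ g₀ ≠ row → lsum row a (g₀ * x) = 0 := by
    intro g₀ hg₀ hne
    obtain ⟨r, hr, u, hu, rfl⟩ := mem_rrSet.mp hg₀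
    by_contra hnz
    have hle := htop _ hnz
    rw [mul_assoc, key_row hr, key_mul, key] at hle
    have hU : ∀ v, f v = M ↔ (row v = row p ∧ col p ≤ col v) ∨
        (row v = row p + 1 ∧ col v ≤ col p) := fun v => by
      simp only [hf, mergeLab]
      split_ifs with h
      · exact iff_of_true rfl h
      · exact iff_of_false (hrM v).ne h
    have hout : ∀ v, f v ≠ M → row (u v) = row v := fun v hv => by
      have h2 : f (u v) = f v := hu v
      have h3 : ∀ w, f w ≠ M → f w = row w := fun w hw => by
        simp only [hf, mergeLab]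
        rw [if_neg fun h => hw ((hU w).mpr h)]
      rw [← h3 v hv, ← h2, h3 (u v) (h2 ▸ hv)]
    have hterm : ∀ v, 0 ≤ ((row (u v) : ℤ) - row v) * ((entry x v : ℤ) - entry x p) ∧
        (row (u v) < row v → 0 < ((row (u v) : ℤ) - row v) * ((entry x v : ℤ) - entry x p)) := by
      intro v
      by_cases hv : f v = M
      · have huv := (hU (u v)).mp ((hu v).trans hv)
        rcases (hU v).mp hv with ⟨h1, h2⟩ | ⟨h1, h2⟩
        · have hle' : entry x p ≤ entry x v := by
            rcases lt_or_eq_of_le h2 with h | h
            · exact (hrs p v h1.symm h).le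
            · rw [hT.inj (Prod.ext h1.symm h : (row p, col p) = (row v, col v))]
          have h3 : row v ≤ row (u v) := by rcases huv with h | h <;> omega
          exact ⟨mul_nonneg (by omega) (by omega), fun h => absurd h (not_lt.mpr h3)⟩
        · have hlt : entry x v < entry x p := by
            rcases lt_or_eq_of_le h2 with h | h
            · exact (hrs v q (h1.trans hrow.symm) (hcol ▸ h)).trans hN
            · rw [hT.inj (Prod.ext (h1.trans hrow.symm) (h.trans hcol.symm) :
                (row v, col v) = (row q, col q))]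
              exact hN
          have h3 : row (u v) ≤ row v := by rcases huv with h | h <;> omega
          exact ⟨mul_nonneg_of_nonpos_of_nonpos (by omega) (by omega),
            fun h => mul_pos_of_neg_of_neg (by omega) (by omega)⟩
      · rw [hout v hv]
        simp
    have hsum0 : ∑ v, ((row (u v) : ℤ) - row v) = 0 := by
      rw [sum_sub_distrib, Equiv.sum_comp u (fun v => (row v : ℤ)), sub_self]
    obtain ⟨v₀, hv₀⟩ : ∃ v, row (u v) < row v := by
      by_contra hall
      simp only [not_exists, not_lt] at hall
      refine hne (funext fun v => ?_)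
      have := (sum_eq_zero_iff_of_nonneg fun v _ => by
        have := hall v; omega).mp hsum0 v (mem_univ v)
      show row ((r * u) v) = row v
      rw [Perm.mul_apply, hr]
      omega
    have hpos : 0 < ∑ v, ((row (u v) : ℤ) - row v) * ((entry x v : ℤ) - entry x p) :=
      sum_pos' (fun v _ => (hterm v).1) ⟨v₀, mem_univ _, (hterm v₀).2 hv₀⟩
    rw [sum_congr rfl (fun v _ => mul_sub _ _ _), sum_sub_distrib, ← sum_mul, hsum0, zero_mul,
      sub_zero] at hpos
    simp only [sub_mul, sum_sub_distrib] at hpos
    have : (∑ v, (row (u v) * entry x v : ℕ) : ℤ) ≤ ∑ v, (row v * entry x v : ℕ) := by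
      exact_mod_cast hle
    push_cast at this
    linarith
  rw [sum_eq_single (row ∘ (1 : Perm α))] at hsum
  · rw [hfib 1 hone, one_mul] at hsum
    exact hx hsum
  · intro ψ hψ hne
    obtain ⟨g₀, hg₀, rfl⟩ := mem_image.mp hψ
    rw [hfib g₀ hg₀]
    exact hzero g₀ hg₀ fun e => hne e
  · exact fun h => absurd (mem_image_of_mem _ hone) h

/-- Straightening. -/
theorem straighten (hT : IsTableau row col) (a : Perm α → ZMod 2) (ha : Good row a) :
    ∃ b, LeftInv col b ∧ ∀ x, lsum row a x = lsum row b x := by
  classical
  suffices ∀ K a, Good row a → (∀ x, lsum row a x ≠ 0 → key row x < K) →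
      ∃ b, LeftInv col b ∧ ∀ x, lsum row a x = lsum row b x by
    refine this ((univ : Finset (Perm α)).sup (key row) + 1) a ha fun x _ => ?_
    have := le_sup (f := key row) (mem_univ x)
    omega
  intro K
  induction K with
  | zero =>
    intro a _ hlt
    refine ⟨0, fun _ _ _ => rfl, fun x => ?_⟩
    have : lsum row a x = 0 := by
      by_contra h
      exact absurd (hlt x h) (Nat.not_lt_zero _)
    rw [this]
    simp [lsum]
  | succ K ih =>
    intro a ha hlt
    set Y := (univ : Finset (Perm α)).filter
      (fun y => key row y = K ∧ lsum row a y ≠ 0 ∧ RowSorted row col y) with hY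
    have hYcol : ∀ y ∈ Y, ColSorted row col y := fun y hy => by
      obtain ⟨-, hk, hne, hrs⟩ := mem_filter.mp hy
      exact colSorted_of_top hT ha hrs hne fun z hz => by
        have := hlt z hz
        omega
    set bY : Perm α → ZMod 2 := fun x => ∑ y ∈ Y, if x * y⁻¹ ∈ stab col then 1 else 0 with hbY
    have hbinv : LeftInv col bY := fun c hc x => by
      simp only [hbY]
      refine sum_congr rfl fun y _ => ?_
      simp only [mul_assoc, Subgroup.mul_mem_cancel_left _ hc]
    have hsupp : ∀ x, ∀ r : stab row, ∀ y ∈ Y, (r : Perm α) * x * y⁻¹ ∈ stab col →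
        key row x ≤ K ∧ (key row x = K → (r : Perm α) * x = y) := fun x r y hy hm => by
      have hk := (mem_filter.mp hy).2.1
      have e : (r : Perm α) * x * y⁻¹ * y = r * x := by simp
      have h1 := key_col_le hT (hYcol y hy) hm
      rw [e, key_row r.2, hk] at h1
      refine ⟨h1, fun hK => ?_⟩
      by_contra hne
      have h2 := key_col hT (hYcol y hy) hm fun h => hne (by rw [← e, h, one_mul])
      rw [e, key_row r.2, hk] at h2
      omega
    have hval : ∀ x, K ≤ key row x → lsum row (a + bY) x = 0 := by
      intro x hK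
      rw [lsum_add]
      have hbsum : lsum row bY x
          = ∑ r : stab row, ∑ y ∈ Y, if (r : Perm α) * x * y⁻¹ ∈ stab col then 1 else 0 := rfl
      rcases lt_or_eq_of_le hK with h | h
      · rw [show lsum row a x = 0 by by_contra h'; have := hlt x h'; omega, zero_add, hbsum]
        refine sum_eq_zero fun r _ => sum_eq_zero fun y hy => if_neg fun hm => ?_
        have := (hsupp x r y hy hm).1
        omega
      · by_cases hw : lsum row a x = 0
        · rw [hw, zero_add, hbsum]
          refine sum_eq_zero fun r _ => sum_eq_zero fun y hy => if_neg fun hm => ?_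
          refine (mem_filter.mp hy).2.2.1 ?_
          rw [← (hsupp x r y hy hm).2 h.symm, lsum_mul_left _ _ r.2, hw]
        · obtain ⟨r₀, hr₀, hs⟩ := exists_sorted hT x
          have hy₀ : r₀ * x ∈ Y := mem_filter.mpr ⟨mem_univ _, by rw [key_row hr₀]; exact h.symm,
            by rwa [lsum_mul_left _ _ hr₀], hs⟩
          rw [eq_one_of_ne_zero hw, hbsum, sum_eq_single (⟨r₀, hr₀⟩ : stab row),
            sum_eq_single (r₀ * x), if_pos (by simp [one_mem]), two_zero]
          · intro y hy hne
            refine if_neg fun hm => hne ?_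
            exact ((hsupp x ⟨r₀, hr₀⟩ y hy hm).2 h.symm).symm
          · exact fun h' => absurd hy₀ h'
          · intro r _ hne
            refine sum_eq_zero fun y hy => if_neg fun hm => hne ?_
            have e := (hsupp x r y hy hm).2 h.symm
            have hmem : (r : Perm α) * r₀⁻¹ ∈ stab row := mul_mem r.2 (inv_mem hr₀)
            have := sorted_unique hT hmem hs (by
              rw [mul_assoc, inv_mul_cancel_left, e]; exact (mem_filter.mp hy).2.2.2)
            exact Subtype.ext (mul_inv_eq_one.mp this)
          · exact fun h' => absurd (mem_univ _) h'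
    obtain ⟨b, hb, hbe⟩ := ih (a + bY) (ha.add (good_of_leftInv hT hbinv)) fun x hx => by
      by_contra h
      exact hx (hval x (not_lt.mp h))
    refine ⟨b + bY, hb.add hbinv, fun x => ?_⟩
    rw [lsum_add, ← hbe, lsum_add, add_assoc, two_zero, add_zero]

end Vale.Agent.P197.Saxl
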