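import Vale.Agent.P197.Saxl.StripShapes

/-!
# P197: short named forms of the positivity results

The Specht modules, their tensor square and the actions get names of their own, so that statements
over them print briefly.
-/

namespace Vale.Agent.P197.Saxl

open scoped TensorProduct

/-- A permutation acting on a Specht module. -/
noncomputable def spMap {α ι κ : Type} [Fintype α] [DecidableEq α] [DecidableEq ι] [DecidableEq κ]
    (row : α → ι) (col : α → κ) (g : Equiv.Perm α) : specht row col →ₗ[ℂ] specht row col :=
  (tabRep α ι g).restrict (tabRep_mem_specht row col g)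

/-- The Specht module of a diagram on the cells of the staircase. -/
def ShapeV {m : ℕ} (row col : Stair m → ℕ) : Type := specht row col

noncomputable instance instShapeVGroup {m : ℕ} (row col : Stair m → ℕ) :
    AddCommGroup (ShapeV row col) :=
  Submodule.addCommGroup (specht row col)

noncomputable instance instShapeVModule {m : ℕ} (row col : Stair m → ℕ) :
    Module ℂ (ShapeV row col) :=
  Submodule.module (specht row col)

/-- The action on it. -/
noncomputable def shapeAct {m : ℕ} (row col : Stair m → ℕ) (g : Equiv.Perm (Stair m)) :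
    ShapeV row col →ₗ[ℂ] ShapeV row col :=
  spMap row col g

/-- The Specht module of the staircase. -/
def StairV (m : ℕ) : Type := specht (stairRow m) (stairCol m)

noncomputable instance instStairVGroup (m : ℕ) : AddCommGroup (StairV m) :=
  Submodule.addCommGroup (specht (stairRow m) (stairCol m))

noncomputable instance instStairVModule (m : ℕ) : Module ℂ (StairV m) :=
  Submodule.module (specht (stairRow m) (stairCol m))

/-- The action on it. -/
noncomputable def stairAct (m : ℕ) (g : Equiv.Perm (Stair m)) : StairV m →ₗ[ℂ] StairV m :=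
  spMap (stairRow m) (stairCol m) g

/-- The tensor square of the staircase Specht module. -/
def SquareV (m : ℕ) : Type := StairV m ⊗[ℂ] StairV m

noncomputable instance instSquareVGroup (m : ℕ) : AddCommGroup (SquareV m) :=
  @TensorProduct.addCommGroup ℂ _ (StairV m) (StairV m) _ _ _ _

noncomputable instance instSquareVModule (m : ℕ) : Module ℂ (SquareV m) :=
  TensorProduct.instModule

/-- The diagonal action on it. -/
noncomputable def squareAct (m : ℕ) (g : Equiv.Perm (Stair m)) : SquareV m →ₗ[ℂ] SquareV m :=
  TensorProduct.map (stairAct m g) (stairAct m g)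

/-- The vector moved by a group element. -/
def move {m : ℕ} {W : Type} [AddCommGroup W] [Module ℂ W]
    (τ : Representation ℂ (Equiv.Perm (Stair m)) W) (g : Equiv.Perm (Stair m)) (z : W) : W :=
  τ g z

/-- Some equivariant linear map to the tensor square is nonzero at the vector. -/
def MapsAt {m : ℕ} {W : Type} [AddCommGroup W] [Module ℂ W]
    (τ : Representation ℂ (Equiv.Perm (Stair m)) W) (y : W) : Prop :=
  ∃ T : W →ₗ[ℂ] SquareV m, T y ≠ 0 ∧ ∀ g w, T (move τ g w) = squareAct m g (T w)

/-- The Kronecker coefficient of the diagram is positive: some equivariant map is nonzero. -/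
def ShapeOccurs {m : ℕ} (row col : Stair m → ℕ) : Prop :=
  ∃ T : ShapeV row col →ₗ[ℂ] SquareV m,
    T ≠ 0 ∧ ∀ g v, T (shapeAct row col g v) = squareAct m g (T v)

theorem shapeOccurs_of_stripFill {m : ℕ} {row col : Stair m → ℕ} (hT : IsTableau row col)
    (hmono : MonoFill row col) (hs : StripFill row col) : ShapeOccurs row col := by
  obtain ⟨T, hT0, hTg⟩ := exists_map_of_stripFill hT hmono hs
  exact ⟨T, hT0, fun g v => LinearMap.congr_fun (hTg g) v⟩

theorem mapsAt_of_fixed_mod_two {m : ℕ} {W : Type} [AddCommGroup W] [Module ℂ W]
    (τ : Representation ℂ (Equiv.Perm (Stair m)) W) (N : AddSubgroup W) (y : W) (hy : y ∉ N)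
    (hN : ∀ g, ∀ z ∈ N, move τ g z ∈ N) (h2 : ∀ g, move τ g y + move τ g y ∈ N)
    (hC : ∀ c ∈ stab (stairCol m), move τ c y - y ∈ N) : MapsAt τ y := by
  obtain ⟨T, hT0, hTg⟩ := exists_map_of_fixed_mod_two τ N y hy hN h2 hC
  exact ⟨T, hT0, fun g w => LinearMap.congr_fun (hTg g) w⟩

end Vale.Agent.P197.Saxl
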