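import Vale.Agent.P197.Saxl.Strips

/-!
# P197: shapes cut into horizontal and vertical strips

If the columns of the staircase fill the diagram of `ν` so that the labels increase weakly along
rows and columns and each label class is a horizontal or a vertical strip, the signed sum of the
translates of the polytabloid over the column group of the staircase is a nonzero vector on which
that group acts by signs.
-/

namespace Vale.Agent.P197.Saxl

open Finset Equiv
open scoped TensorProduct

variable {m : ℕ}

/-- The columns of the staircase fill the diagram with monotone labels. -/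
def MonoFill (row col : Stair m → ℕ) : Prop :=
  ∀ x y, row x ≤ row y → col x ≤ col y → stairCol m x ≤ stairCol m y

/-- Each label class is a horizontal strip or a vertical strip. -/
def StripFill (row col : Stair m → ℕ) : Prop :=
  ∀ j : Fin m, (∀ x y, stairCol m x = j → stairCol m y = j → col x = col y → x = y) ∨
    (∀ x y, stairCol m x = j → stairCol m y = j → row x = row y → x = y)

variable {row col : Stair m → ℕ}

/-- A column permutation of `ν` giving the rows of a label preserving one keeps the labels. -/
theorem label_preserved (hT : IsTableau row col) (hmono : MonoFill row col)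
    {c p : Perm (Stair m)} (hc : c ∈ stab (stairCol m)) (hp : p ∈ stab col)
    (h : ∀ x, row (c x) = row (p x)) (x : Stair m) : stairCol m (p x) = stairCol m x := by
  classical
  suffices key : ∀ (k : ℕ) (x : Stair m), (stairCol m x : ℕ) = k → (stairCol m (p x) : ℕ) = k from
    Fin.ext (key _ x rfl)
  intro k
  induction k using Nat.strong_induction_on with
  | _ k ih =>
    let Fib : ℕ → Finset (Stair m) := fun i => univ.filter fun y => (stairCol m y : ℕ) = i
    have memF : ∀ i y, y ∈ Fib i ↔ (stairCol m y : ℕ) = i := fun i y => by simp [Fib]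
    have hge : ∀ y, (stairCol m y : ℕ) = k → k ≤ stairCol m (p y) := by
      intro y hy
      by_contra hlt
      have himg : (Fib (stairCol m (p y) : ℕ)).image p = Fib (stairCol m (p y) : ℕ) :=
        eq_of_subset_of_card_le (fun z hz => by
          obtain ⟨w, hw, rfl⟩ := mem_image.mp hz
          exact (memF _ _).mpr (ih _ (not_le.mp hlt) w ((memF _ _).mp hw)))
          (card_image_of_injective _ p.injective).ge
      have hmem : p y ∈ (Fib (stairCol m (p y) : ℕ)).image p := by
        rw [himg]
        exact (memF _ _).mpr rfl
      obtain ⟨w, hw, e⟩ := mem_image.mp hmem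
      rw [p.injective e, memF, hy] at hw
      omega
    let b : ℕ → ℕ := fun i => (univ.filter fun z => col z = i ∧ (stairCol m z : ℕ) ≤ k).card
    let D : Stair m → ℤ := fun y => (row y : ℤ) - b (col y)
    have hneg : ∀ y, (stairCol m y : ℕ) ≤ k → D y < 0 := by
      intro y hy
      suffices row y + 1 ≤ b (col y) by simp only [D]; omega
      have hdown : ∀ i : Fin (row y + 1), ∃ z, row z = i ∧ col z = col y := fun i =>
        hT.down y i (col y) (by omega) le_rfl
      choose z hz1 hz2 using hdown
      calc row y + 1 = (univ : Finset (Fin (row y + 1))).card := by simp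
        _ ≤ b (col y) := by
          refine card_le_card_of_injOn z (fun i _ => ?_) ?_
          · refine mem_coe.mpr (mem_filter.mpr ⟨mem_univ _, hz2 i, ?_⟩)
            have hle := Fin.le_def.mp (hmono (z i) y (by rw [hz1]; omega) (hz2 i).le)
            omega
          · intro i _ i' _ e
            exact Fin.ext (by rw [← hz1 i, ← hz1 i', e])
    have hnonneg : ∀ y, k < (stairCol m y : ℕ) → 0 ≤ D y := by
      intro y hy
      suffices b (col y) ≤ row y by simp only [D]; omega
      calc b (col y) ≤ (range (row y)).card := by
            refine card_le_card_of_injOn row (fun z hz => ?_) ?_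
            · obtain ⟨hz1, hz2⟩ := (mem_filter.mp hz).2
              refine mem_coe.mpr (mem_range.mpr (not_le.mp fun hle => ?_))
              have := Fin.le_def.mp (hmono y z hle hz1.ge)
              omega
            · intro z hz z' hz' e
              exact hT.inj (Prod.ext e ((mem_filter.mp hz).2.1.trans (mem_filter.mp hz').2.1.symm))
        _ = row y := card_range _
    intro x hx
    by_contra hne
    set F := Fib k
    have hcimg : ∑ y ∈ F, row (c y) = ∑ y ∈ F, row y := by
      refine sum_equiv c (fun y => ?_) fun y _ => rfl
      rw [memF, memF, hc y]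
    have hsum : ∑ y ∈ F.image p, D y = ∑ y ∈ F, D y := by
      rw [sum_image fun a _ a' _ e => p.injective e]
      simp only [D, sum_sub_distrib, hp _, ← h]
      have := congrArg (Nat.cast : ℕ → ℤ) hcimg
      push_cast at this
      rw [this]
    have hsd := sum_sdiff_sub_sum_sdiff (s₁ := F) (s₂ := F.image p) (f := D)
    rw [hsum, sub_self, sub_eq_zero] at hsd
    have hout : ∀ y ∈ F.image p \ F, 0 ≤ D y := fun y hy => by
      obtain ⟨hy1, hy2⟩ := mem_sdiff.mp hy
      obtain ⟨w, hw, rfl⟩ := mem_image.mp hy1
      have := hge w ((memF _ _).mp hw)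
      refine hnonneg _ (lt_of_le_of_ne this fun e => hy2 ((memF _ _).mpr e.symm))
    have hnonempty : (F \ F.image p).Nonempty := by
      rw [← card_pos, card_sdiff_comm (card_image_of_injective F p.injective).symm]
      exact card_pos.mpr ⟨p x, mem_sdiff.mpr
        ⟨mem_image_of_mem _ ((memF _ _).mpr hx), fun e => hne ((memF _ _).mp e)⟩⟩
    have hlt : ∑ y ∈ F \ F.image p, D y < 0 :=
      sum_neg (fun y hy => hneg y ((memF _ _).mp (mem_sdiff.mp hy).1).le) hnonempty
    have := sum_nonneg hout
    omega

/-- Labels whose class is no horizontal strip. -/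
def VertLabel (col : Stair m → ℕ) (x : Stair m) : Prop :=
  ¬ ∀ y z, stairCol m y = stairCol m x → stairCol m z = stairCol m x → col y = col z → y = z

theorem vertLabel_congr {x y : Stair m} (h : stairCol m x = stairCol m y) :
    VertLabel col x ↔ VertLabel col y := by
  simp only [VertLabel, h]

/-- The part of a column permutation on the vertical strips. -/
noncomputable def vertPart (col : Stair m → ℕ) (c : stab (stairCol m)) : Perm (Stair m) :=
  open Classical in
  Perm.ofSubtype ((c : Perm (Stair m)).subtypePerm (p := VertLabel col) fun x =>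
    vertLabel_congr (c.2 x))

theorem vertPart_of {c : stab (stairCol m)} {x : Stair m} (h : VertLabel col x) :
    vertPart col c x = (c : Perm (Stair m)) x := by
  classical
  rw [vertPart, Perm.ofSubtype_apply_of_mem _ h]
  rfl

theorem vertPart_not {c : stab (stairCol m)} {x : Stair m} (h : ¬ VertLabel col x) :
    vertPart col c x = x := by
  classical
  rw [vertPart, Perm.ofSubtype_apply_of_not_mem _ h]

theorem vertPart_mul (c d : stab (stairCol m)) :
    vertPart col (c * d) = vertPart col c * vertPart col d := by
  refine Equiv.ext fun x => ?_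
  by_cases h : VertLabel col x
  · have h' : VertLabel col ((d : Perm (Stair m)) x) := (vertLabel_congr (d.2 x)).mpr h
    rw [Perm.mul_apply, vertPart_of h, vertPart_of h, vertPart_of h']
    rfl
  · rw [Perm.mul_apply, vertPart_not h, vertPart_not h, vertPart_not h]

theorem eq_vertPart (hT : IsTableau row col) (hmono : MonoFill row col) (hs : StripFill row col)
    {c : stab (stairCol m)} {p : Perm (Stair m)} (hp : p ∈ stab col)
    (h : ∀ x, row ((c : Perm (Stair m)) x) = row (p x)) : p = vertPart col c := by
  refine Equiv.ext fun x => ?_
  have hl := label_preserved hT hmono c.2 hp h x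
  by_cases hx : VertLabel col x
  · rw [vertPart_of hx]
    exact (((hs (stairCol m x)).resolve_left hx) _ _ (c.2 x) hl (h x)).symm
  · rw [vertPart_not hx]
    exact (not_not.mp hx) _ _ hl rfl (hp x)

/-- The sign on the vertical strips. -/
noncomputable def vertSign (col : Stair m → ℕ) (c : stab (stairCol m)) : ℂ :=
  ((Perm.sign (vertPart col c) : ℤ) : ℂ)

theorem vertSign_mul (c d : stab (stairCol m)) :
    vertSign col (c * d) = vertSign col c * vertSign col d := by
  simp [vertSign, vertPart_mul, Perm.sign_mul]

/-- The signed sum of translates of the polytabloid. -/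
noncomputable def stripVec (row col : Stair m → ℕ) : specht row col :=
  ∑ c : stab (stairCol m),
    vertSign col c • spechtRep row col (c : Perm (Stair m)) ⟨_, polytabloid_mem⟩

theorem stripVec_signs (d : Perm (Stair m)) (hd : d ∈ stab (stairCol m)) :
    spechtRep row col d (stripVec row col) = stripVec row col ∨
      spechtRep row col d (stripVec row col) = -stripVec row col := by
  have key : spechtRep row col d (stripVec row col)
      = vertSign col ⟨d, hd⟩ • stripVec row col := by
    rw [stripVec, map_sum, smul_sum]
    conv_rhs => rw [← Equiv.sum_comp (Equiv.mulLeft (⟨d, hd⟩ : stab (stairCol m)))]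
    refine sum_congr rfl fun c _ => ?_
    have hsq : vertSign col ⟨d, hd⟩ * vertSign col ⟨d, hd⟩ = 1 := by
      rw [vertSign]
      rcases Int.units_eq_one_or (Perm.sign (vertPart col ⟨d, hd⟩)) with e | e <;> rw [e] <;> simp
    rw [Equiv.coe_mulLeft, smul_smul, vertSign_mul, ← mul_assoc, hsq, one_mul, map_smul,
      Subgroup.coe_mul, map_mul, Module.End.mul_apply]
  rw [key, vertSign]
  rcases Int.units_eq_one_or (Perm.sign (vertPart col ⟨d, hd⟩)) with e | e <;> rw [e]
  · simp
  · refine Or.inr ?_
    have e1 : (((-1 : ℤˣ) : ℤ) : ℂ) = -1 := by simp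
    rw [e1]
    exact neg_one_smul ℂ (stripVec row col)

theorem stripVec_ne_zero (hT : IsTableau row col) (hmono : MonoFill row col)
    (hs : StripFill row col) : stripVec row col ≠ 0 := by
  classical
  intro h0
  have h1 := congrArg (fun v : specht row col => (v : (Stair m → ℕ) → ℂ) row) h0
  simp only [stripVec, AddSubmonoidClass.coe_finsetSum, Finset.sum_apply, SetLike.val_smul,
    Pi.smul_apply, smul_eq_mul, ZeroMemClass.coe_zero, Pi.zero_apply] at h1
  have hval : ∀ c : stab (stairCol m), vertSign col c *
      ((spechtRep row col (c : Perm (Stair m)) ⟨_, polytabloid_mem⟩ : specht row col) :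
        (Stair m → ℕ) → ℂ) row
      = (((univ : Finset (stab col)).filter fun q : stab col =>
          row ∘ ((c : Perm (Stair m)) * (q : Perm (Stair m))) = row).card : ℂ) := by
    intro c
    show _ * tabRep (Stair m) ℕ (c : Perm (Stair m)) (polytabloid row col) row = _
    simp only [polytabloid, map_sum, map_smul, Finset.sum_apply, Pi.smul_apply]
    rw [mul_sum, ← sum_boole]
    refine sum_congr rfl fun q _ => ?_
    show _ * (_ * tabloid row (row ∘ ((c : Perm (Stair m)) * (q : Perm (Stair m))))) = _
    by_cases hq : row ∘ ((c : Perm (Stair m)) * (q : Perm (Stair m))) = row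
    · have e : ((q⁻¹ : stab col) : Perm (Stair m)) = vertPart col c :=
        eq_vertPart hT hmono hs (q⁻¹).2 fun x => by
          have := congrFun hq (((q⁻¹ : stab col) : Perm (Stair m)) x)
          simpa using this
      have hsgn : vertSign col c = ((Perm.sign (q : Perm (Stair m)) : ℤ) : ℂ) := by
        rw [vertSign, ← e, Subgroup.coe_inv, Perm.sign_inv]
      rw [if_pos hq, tabloid, if_pos hq, hsgn, mul_one]
      rcases Int.units_eq_one_or (Perm.sign (q : Perm (Stair m))) with e | e <;> rw [e] <;> simp
    · rw [if_neg hq, tabloid, if_neg hq, mul_zero, mul_zero]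
  simp only [hval] at h1
  rw [← Nat.cast_sum, Nat.cast_eq_zero, sum_eq_zero_iff] at h1
  have h2 := h1 1 (mem_univ _)
  rw [card_eq_zero, filter_eq_empty_iff] at h2
  exact h2 (mem_univ (1 : stab col)) (by simp)

/-- Diagrams filled by strips of sizes `m, m - 1, ..., 1` occur in the tensor square. -/
theorem exists_map_of_stripFill (hT : IsTableau row col) (hmono : MonoFill row col)
    (hs : StripFill row col) :
    ∃ T : specht row col →ₗ[ℂ]
        (specht (stairRow m) (stairCol m) ⊗[ℂ] specht (stairRow m) (stairCol m)),
      T ≠ 0 ∧ ∀ g, T ∘ₗ spechtRep row col g = ((stairRep m).tprod (stairRep m)) g ∘ₗ T := by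
  obtain ⟨T, hT0, hTg⟩ := exists_map_of_col_signs (spechtRep row col)
    (stripVec_ne_zero hT hmono hs) stripVec_signs
  exact ⟨T, fun e => hT0 (by rw [e]; rfl), hTg⟩

end Vale.Agent.P197.Saxl
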