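import Vale.Agent.P197.Saxl.HookOdd

/-!
# P197: representations with a vector fixed mod 2 by the column group occur in the tensor square

Let `f` be the indicator mod 2 of `R C` and `a = antiPerm`.  By the convolution identity the
function `g ↦ f (a g)` is the sum over `c ∈ C` of `h (g c)` with `h y = ∑_{r ∈ R} f (a y r)`, and it
is the point mass at `1` on `R` by the triangular Latin square lemma.  The product of the integer
coefficient supported on `(R C)⁻¹` and a lift of `h` gives a coefficient function of the tensor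
square which acts as the identity on a vector fixed mod 2 by `C`.
-/

namespace Vale.Agent.P197.Saxl

open Finset Equiv
open scoped TensorProduct

variable {m : ℕ}

theorem rc_injective (m : ℕ) : Function.Injective
    fun p : stab (stairRow m) × stab (stairCol m) =>
      (p.1 : Perm (Stair m)) * (p.2 : Perm (Stair m)) := by
  rintro ⟨r, c⟩ ⟨r', c'⟩ h
  change (r : Perm (Stair m)) * c = r' * c' at h
  have e : (r' : Perm (Stair m))⁻¹ * r = (c' : Perm (Stair m)) * (c : Perm (Stair m))⁻¹ := by
    rw [inv_mul_eq_iff_eq_mul, ← mul_assoc, eq_mul_inv_iff_mul_eq, h]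
  have h1 : (r' : Perm (Stair m))⁻¹ * r = 1 :=
    stab_inter_eq_one (stair_injective m) (mul_mem (inv_mem r'.2) r.2)
      (by rw [e]; exact mul_mem c'.2 (inv_mem c.2))
  have hr : r' = r := Subtype.ext (inv_mul_eq_one.mp h1)
  subst hr
  exact Prod.ext rfl (Subtype.ext (mul_left_cancel h))

/-- A function supported on `R C` summed over the group. -/
theorem sum_rc {M : Type*} [AddCommMonoid M] (F : Perm (Stair m) → M)
    (hF : ∀ g, g ∉ rcSet m → F g = 0) :
    ∑ g, F g = ∑ r : stab (stairRow m), ∑ c : stab (stairCol m),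
      F ((r : Perm (Stair m)) * (c : Perm (Stair m))) := by
  rw [← Fintype.sum_prod_type (f := fun p : stab (stairRow m) × stab (stairCol m) =>
    F ((p.1 : Perm (Stair m)) * p.2)), ← sum_subset (subset_univ (rcSet m)) fun g _ hg => hF g hg,
    rcSet, sum_image fun p _ q _ h => rc_injective m h]

theorem tabInt_eq_zero {g : Perm (Stair m)} (hg : g ∉ rcSet m) : tabInt m g = 0 := by
  refine sum_eq_zero fun c _ => if_neg fun hmem => hg ?_
  exact mem_image.mpr ⟨(⟨_, hmem⟩, c⁻¹), mem_univ _, by simp⟩

theorem antiPerm_mul_mem_iff {r : Perm (Stair m)} (hr : r ∈ stab (stairRow m)) :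
    antiPerm m * r ∈ rcSet m ↔ r = 1 := by
  rw [mem_rcSet_iff]
  constructor
  · intro h
    refine Equiv.ext fun x => ?_
    have hR : ∀ y, (stairRow m (r y) : ℕ) = stairRow m y := fun y => congrArg Fin.val (hr y)
    have hv : ∀ y, (stairRow m ((antiPerm m * r) y) : ℕ)
        = m - 1 - stairRow m y - stairCol m (r y) := fun y => by
      rw [Perm.mul_apply, antiPerm_row, hR]
    have hb : ∀ y, (stairRow m y : ℕ) + stairCol m (r y) < m := fun y => by
      rw [← hR]
      exact (r y).2
    have e := latin_forced (v := fun y => (stairRow m ((antiPerm m * r) y) : ℕ))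
      (fun y => by
        have := hb y
        rw [hv]
        omega)
      (fun y z h1 h2 => r.injective (stair_ext (by rw [hR, hR, h1]) (by
        have := hb y
        have := hb z
        have : (stairRow m y : ℕ) = stairRow m z := congrArg Fin.val h1
        rw [hv, hv] at h2
        omega)))
      (fun y z h1 h2 => h.2 (Prod.ext h2 (congrArg Fin.val h1))) x
    have := hb x
    rw [hv] at e
    exact stair_ext (hR x) (by simp only [Perm.one_apply]; omega)
  · rintro rfl
    rw [mul_one]
    refine ⟨fun x => ?_, fun x y e => ?_⟩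
    · have h2 : (stairRow m x : ℕ) + stairCol m x < m := x.2
      simp only [antiPerm_row]
      omega
    · simp only [antiPerm_row, Prod.mk.injEq] at e
      have h1 : (stairRow m x : ℕ) + stairCol m x < m := x.2
      have h2 : (stairRow m y : ℕ) + stairCol m y < m := y.2
      exact stair_ext (by omega) e.2

/-- The coefficient function of the tensor square. -/
def stripFun (m : ℕ) (k : Perm (Stair m)) : ℤ :=
  ∑ s : stab (stairRow m), tabInt m (transpose m * k * transpose m) *
    tabInt m (transpose m * (s : Perm (Stair m)) * k * (antiPerm m * transpose m))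

theorem stripFun_eq_zero {k : Perm (Stair m)} (hk : k⁻¹ ∉ rcSet m) : stripFun m k = 0 :=
  sum_eq_zero fun _ _ => by
    rw [tabInt_eq_zero fun h => hk ((transpose_conj_mem_iff k).mp h), zero_mul]

theorem antiPerm_inv (m : ℕ) : (antiPerm m)⁻¹ = antiPerm m := rfl

theorem stripFun_column_sum (r : stab (stairRow m)) :
    ∑ c : stab (stairCol m),
        (stripFun m ((r : Perm (Stair m)) * (c : Perm (Stair m)))⁻¹ : ZMod 2)
      = if r = 1 then 1 else 0 := by
  have hterm : ∀ c : stab (stairCol m),
      (stripFun m ((r : Perm (Stair m)) * (c : Perm (Stair m)))⁻¹ : ZMod 2)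
        = ∑ s : stab (stairRow m), if antiPerm m * ((r : Perm (Stair m)) * c)
            * (s : Perm (Stair m))⁻¹ ∈ rcSet m then 1 else 0 := fun c => by
    have hmem : (r : Perm (Stair m)) * c ∈ rcSet m := mem_image.mpr ⟨(r, c), mem_univ _, rfl⟩
    rw [stripFun, Int.cast_sum]
    refine sum_congr rfl fun s _ => ?_
    rw [Int.cast_mul, tabInt_mod_two, tabInt_mod_two,
      if_pos ((transpose_conj_mem_iff _).mpr (by rwa [inv_inv])), one_mul]
    refine if_congr ?_ rfl rfl
    rw [show transpose m * (s : Perm (Stair m)) * ((r : Perm (Stair m)) * c)⁻¹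
        * (antiPerm m * transpose m)
      = transpose m * ((s : Perm (Stair m)) * ((r : Perm (Stair m)) * c)⁻¹ * antiPerm m)
          * transpose m by simp only [mul_assoc], transpose_conj_mem_iff]
    simp only [mul_inv_rev, inv_inv, antiPerm_inv, mul_assoc]
  simp only [hterm]
  have hconv := conv_rcSet (antiPerm m * (r : Perm (Stair m))) 1
  simp only [mul_one] at hconv
  rw [← Equiv.sum_comp (Equiv.inv (Perm (Stair m))), sum_rc] at hconv
  · simp only [antiPerm_mul_mem_iff r.2, OneMemClass.coe_eq_one] at hconv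
    rw [← hconv, sum_comm]
    refine sum_congr rfl fun s _ => ?_
    rw [← Equiv.sum_comp (Equiv.inv (stab (stairCol m)))]
    refine sum_congr rfl fun c _ => if_congr ?_ rfl rfl
    simp only [Equiv.inv_apply, Subgroup.coe_inv, inv_inv, mul_inv_rev, mul_assoc]
    exact (and_iff_left (mem_image.mpr ⟨(s, c), mem_univ _, rfl⟩)).symm
  · intro g hg
    refine if_neg fun h => hg ?_
    simpa using h.2

/-- A vector killed by all intertwiners is killed by every coefficient function. -/
theorem exists_intertwiner_at {G V W I : Type} [Group G] [Fintype G] [Fintype I] [AddCommGroup V]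
    [Module ℂ V] [FiniteDimensional ℂ V] [AddCommGroup W] [Module ℂ W]
    (ρ : Representation ℂ G V) (τ : Representation ℂ G W)
    (f f' : I → Module.End ℂ V →ₗ[ℂ] ℂ) (u : G → ℂ)
    (hu : ∀ g, u g = ∑ i, f i (ρ g) * f' i (ρ g)) (w : W)
    (hw : ∑ k, u k • τ k⁻¹ w ≠ 0) :
    ∃ T : W →ₗ[ℂ] V ⊗[ℂ] V, T w ≠ 0 ∧ ∀ g, T ∘ₗ τ g = (ρ.tprod ρ) g ∘ₗ T := by
  classical
  let P : I → Module.End ℂ V ⊗[ℂ] Module.End ℂ V →ₗ[ℂ] ℂ := fun i =>
    TensorProduct.lift (((LinearMap.mul ℂ ℂ).comp (f i)).compl₂ (f' i))
  let Ω := (∑ i, P i).comp (homTensorHomEquiv ℂ V V V V).symm.toLinearMap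
  have hΩ : ∀ g, Ω (ρ.tprod ρ g) = u g := fun g => by
    have e : (homTensorHomEquiv ℂ V V V V).symm (ρ.tprod ρ g) = ρ g ⊗ₜ ρ g := by
      rw [LinearEquiv.symm_apply_eq, homTensorHomEquiv_apply, TensorProduct.homTensorHomMap_apply]
      rfl
    show (∑ i, P i) ((homTensorHomEquiv ℂ V V V V).symm (ρ.tprod ρ g)) = _
    rw [e, LinearMap.sum_apply, hu]
    rfl
  by_contra hno
  refine hw ((Module.forall_dual_apply_eq_zero_iff ℂ _).mp fun φ => ?_)
  have hop : ∑ k, φ (τ k⁻¹ w) • ρ.tprod ρ k = 0 := LinearMap.ext fun v => by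
    let T : W →ₗ[ℂ] V ⊗[ℂ] V := ∑ k, ρ.tprod ρ k ∘ₗ φ.smulRight v ∘ₗ τ k⁻¹
    have hT : ∀ g, T ∘ₗ τ g = (ρ.tprod ρ) g ∘ₗ T := fun g => by
      ext y
      simp only [T, LinearMap.comp_apply, LinearMap.coe_sum, Finset.sum_apply, map_sum]
      refine (Fintype.sum_equiv (Equiv.mulLeft g) _ _ fun k => ?_).symm
      simp only [Equiv.coe_mulLeft, map_mul, mul_inv_rev, Module.End.mul_apply]
      congr 2
      rw [← Module.End.mul_apply (τ k⁻¹), ← map_mul, ← Module.End.mul_apply, ← map_mul]
      simp
    have h0 : T w = 0 := by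
      by_contra hne
      exact hno ⟨T, hne, hT⟩
    simp only [T, LinearMap.coe_sum, Finset.sum_apply, LinearMap.comp_apply,
      LinearMap.smulRight_apply, map_smul] at h0
    simpa [LinearMap.coe_sum, Finset.sum_apply] using h0
  have := congrArg Ω hop
  simp only [map_sum, map_smul, hΩ, map_zero, smul_eq_mul] at this
  rw [map_sum, ← this]
  exact sum_congr rfl fun k _ => by rw [map_smul, smul_eq_mul, mul_comm]

/-- The coefficient function acts nontrivially on a vector fixed mod 2 by the column group. -/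
theorem stripFun_act_of_fixed {W : Type} [AddCommGroup W] [Module ℂ W]
    (τ : Representation ℂ (Perm (Stair m)) W) (N : AddSubgroup W) (y : W) (hy : y ∉ N)
    (hN : ∀ g, ∀ z ∈ N, τ g z ∈ N) (h2 : ∀ g, τ g y + τ g y ∈ N)
    (hC : ∀ c ∈ stab (stairCol m), τ c y - y ∈ N) :
    ∑ k, stripFun m k • τ k⁻¹ y ≠ 0 := by
  classical
  intro h0
  refine hy ?_
  rw [← Equiv.sum_comp (Equiv.inv (Perm (Stair m)))] at h0
  simp only [Equiv.inv_apply, inv_inv] at h0
  rw [sum_rc] at h0
  rotate_left
  · intro g hg
    rw [stripFun_eq_zero (by rwa [inv_inv]), zero_smul]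
  have hpar : ∀ (z : ℤ) (w : W), w + w ∈ N → z • w - (if (z : ZMod 2) = 1 then w else 0) ∈ N := by
    intro z w hw
    rcases Int.even_or_odd z with ⟨t, rfl⟩ | ⟨t, rfl⟩
    · rw [if_neg (by push_cast; rw [CharTwo.add_self_eq_zero]; exact zero_ne_one), sub_zero,
        add_smul, ← smul_add]
      exact N.zsmul_mem hw t
    · rw [if_pos (by push_cast; rw [show (2 : ZMod 2) = 0 from rfl, zero_mul, zero_add]), add_smul,
        one_smul, add_sub_cancel_right, two_mul, add_smul, ← smul_add]
      exact N.zsmul_mem hw t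
  have hrow : ∀ r : stab (stairRow m), ∑ c : stab (stairCol m),
      stripFun m ((r : Perm (Stair m)) * (c : Perm (Stair m)))⁻¹ •
        τ ((r : Perm (Stair m)) * (c : Perm (Stair m))) y
      - (if r = 1 then y else 0) ∈ N := by
    intro r
    set S : ℤ := ∑ c : stab (stairCol m),
      stripFun m ((r : Perm (Stair m)) * (c : Perm (Stair m)))⁻¹ with hS
    have hSr : (S : ZMod 2) = if r = 1 then 1 else 0 := by
      rw [hS, Int.cast_sum]
      exact stripFun_column_sum r
    have h1 : ∑ c : stab (stairCol m),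
        stripFun m ((r : Perm (Stair m)) * (c : Perm (Stair m)))⁻¹ •
          τ ((r : Perm (Stair m)) * (c : Perm (Stair m))) y - S • τ r y ∈ N := by
      rw [hS, sum_smul, ← sum_sub_distrib]
      refine N.sum_mem fun c _ => ?_
      rw [← smul_sub, map_mul, Module.End.mul_apply, ← map_sub]
      exact N.zsmul_mem (hN _ _ (hC c c.2)) _
    have h2' := hpar S (τ r y) (h2 r)
    rw [hSr] at h2'
    have := N.add_mem h1 h2'
    rw [sub_add_sub_cancel] at this
    by_cases hr : r = 1
    · subst hr
      simpa using this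
    · simpa [hr] using this
  have := N.sum_mem (t := (univ : Finset (stab (stairRow m)))) fun r _ => hrow r
  rw [sum_sub_distrib, h0, sum_ite_eq' univ (1 : stab (stairRow m)) fun _ => y, if_pos (mem_univ _),
    zero_sub] at this
  exact neg_mem_iff.mp this

/-- If some vector is fixed by the column group modulo an invariant additive subgroup which
contains twice its orbit but not the vector, some intertwiner to the tensor square is nonzero at
it. -/
theorem exists_map_of_fixed_mod_two {W : Type} [AddCommGroup W] [Module ℂ W]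
    (τ : Representation ℂ (Perm (Stair m)) W) (N : AddSubgroup W) (y : W) (hy : y ∉ N)
    (hN : ∀ g, ∀ z ∈ N, τ g z ∈ N) (h2 : ∀ g, τ g y + τ g y ∈ N)
    (hC : ∀ c ∈ stab (stairCol m), τ c y - y ∈ N) :
    ∃ T : W →ₗ[ℂ] (specht (stairRow m) (stairCol m) ⊗[ℂ] specht (stairRow m) (stairCol m)),
      T y ≠ 0 ∧ ∀ g, T ∘ₗ τ g = ((stairRep m).tprod (stairRep m)) g ∘ₗ T := by
  classical
  refine exists_intertwiner_at (I := stab (stairRow m)) (stairRep m) τ
    (fun _ => transFun m (transpose m) (transpose m))
    (fun s => transFun m (transpose m * (s : Perm (Stair m))) (antiPerm m * transpose m))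
    (fun k => (stripFun m k : ℂ))
    (fun k => by simp [stripFun, transFun_apply]) y ?_
  simp only [Int.cast_smul_eq_zsmul]
  exact stripFun_act_of_fixed τ N y hy hN h2 hC

/-- The orbit of a nonzero vector is not contained in twice the lattice it spans. -/
theorem notMem_two_smul_span {G W : Type} [Group G] [Finite G] [AddCommGroup W] [Module ℂ W]
    (τ : Representation ℂ G W) {x : W} (hx : x ≠ 0) :
    x ∉ (AddSubgroup.closure (Set.range fun g => τ g x)).map (zsmulAddGroupHom (α := W) 2) := by
  rintro ⟨y, hy, e⟩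
  let M : Submodule ℤ W := Submodule.span ℤ (Set.range fun g => τ g x)
  have hfg : M.FG := Submodule.fg_span (Set.finite_range _)
  have hle : M ≤ (Ideal.span {(2 : ℤ)}) • M := by
    refine Submodule.span_le.mpr ?_
    rintro _ ⟨g, rfl⟩
    have hyM : y ∈ M := by
      rw [← Submodule.span_int_eq_addSubgroupClosure] at hy
      exact hy
    have hgy : τ g y ∈ M := by
      refine Submodule.span_induction ?_ ?_ ?_ ?_ hyM
      · rintro _ ⟨h, rfl⟩
        exact Submodule.subset_span ⟨g * h, by simp [map_mul]⟩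
      · simp
      · intro a b _ _ ha hb
        rw [map_add]
        exact M.add_mem ha hb
      · intro t a _ ha
        rw [map_zsmul]
        exact M.smul_mem t ha
    have hg : τ g x = (2 : ℤ) • τ g y := by
      rw [← map_zsmul, ← e]
      rfl
    show τ g x ∈ _
    rw [hg]
    exact Submodule.smul_mem_smul (Ideal.subset_span rfl) hgy
  obtain ⟨r, hr, hrM⟩ := Submodule.exists_sub_one_mem_and_smul_eq_zero_of_fg_of_le_smul _ M hfg hle
  have h1 : r • x = 0 := hrM _ (Submodule.subset_span ⟨1, by simp⟩)
  rw [Ideal.mem_span_singleton] at hr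
  have hr0 : r ≠ 0 := by
    rintro rfl
    norm_num at hr
  rw [← Int.cast_smul_eq_zsmul ℂ, smul_eq_zero, Int.cast_eq_zero] at h1
  exact h1.elim hr0 hx

/-- A sign eigenvector of the column group is not killed. -/
theorem stripFun_act_ne_zero {W : Type} [AddCommGroup W] [Module ℂ W]
    (τ : Representation ℂ (Perm (Stair m)) W) {x : W} (hx : x ≠ 0)
    (hC : ∀ c ∈ stab (stairCol m), τ c x = x ∨ τ c x = -x) :
    ∑ k, stripFun m k • τ k⁻¹ x ≠ 0 := by
  refine stripFun_act_of_fixed τ _ x (notMem_two_smul_span τ hx) ?_ ?_ ?_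
  · rintro g _ ⟨z, hz, rfl⟩
    refine ⟨τ g z, ?_, (map_zsmul (τ g) 2 z).symm⟩
    induction hz using AddSubgroup.closure_induction with
    | mem a ha =>
      obtain ⟨h, rfl⟩ := ha
      exact AddSubgroup.subset_closure ⟨g * h, by simp [map_mul]⟩
    | zero => simp
    | add a b _ _ ha hb => rw [map_add]; exact add_mem ha hb
    | neg a _ ha => rw [map_neg]; exact neg_mem ha
  · intro g
    exact ⟨τ g x, AddSubgroup.subset_closure ⟨g, rfl⟩, two_zsmul _⟩
  · intro c hc
    rcases hC c hc with h | h
    · simp [h, zero_mem]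
    · refine ⟨-x, neg_mem (AddSubgroup.subset_closure ⟨1, by simp⟩), ?_⟩
      show (2 : ℤ) • -x = _
      rw [h, two_zsmul]
      abel

/-- A vector on which every element of the column group acts by a sign. -/
theorem exists_map_of_col_signs {W : Type} [AddCommGroup W] [Module ℂ W]
    (τ : Representation ℂ (Perm (Stair m)) W) {x : W} (hx : x ≠ 0)
    (hC : ∀ c ∈ stab (stairCol m), τ c x = x ∨ τ c x = -x) :
    ∃ T : W →ₗ[ℂ] (specht (stairRow m) (stairCol m) ⊗[ℂ] specht (stairRow m) (stairCol m)),
      T x ≠ 0 ∧ ∀ g, T ∘ₗ τ g = ((stairRep m).tprod (stairRep m)) g ∘ₗ T := by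
  refine exists_intertwiner_at (I := stab (stairRow m)) (stairRep m) τ
    (fun _ => transFun m (transpose m) (transpose m))
    (fun s => transFun m (transpose m * (s : Perm (Stair m))) (antiPerm m * transpose m))
    (fun k => (stripFun m k : ℂ))
    (fun k => by simp [stripFun, transFun_apply]) x ?_
  simp only [Int.cast_smul_eq_zsmul]
  exact stripFun_act_ne_zero τ hx hC

end Vale.Agent.P197.Saxl
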